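import Vale.Agent.P054.T2.H441.Dense

/-! P054 / T2: Hilbert functions of ideals, separation lemma, additivity over primes. -/

namespace Vale.Agent.P054.T2.H163

open MvPolynomial H441

variable {K : Type*} [Field K] {σ : Type*}

/-- the maximal ideal of a point -/
noncomputable def m (p : σ → K) : Ideal (MvPolynomial σ K) := RingHom.ker (eval p)

theorem mem_m {p : σ → K} {F : MvPolynomial σ K} : F ∈ m p ↔ eval p F = 0 := by
  rw [m, RingHom.mem_ker]

theorem V_mono {a b : ℕ} (hab : a ≤ b) :
    restrictTotalDegree σ K a ≤ restrictTotalDegree σ K b := by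
  intro F hF
  rw [mem_restrictTotalDegree] at hF ⊢
  exact hF.trans hab

theorem V_mul {a b : ℕ} {F G : MvPolynomial σ K} (hF : F ∈ restrictTotalDegree σ K a)
    (hG : G ∈ restrictTotalDegree σ K b) : F * G ∈ restrictTotalDegree σ K (a + b) := by
  rw [mem_restrictTotalDegree] at hF hG ⊢
  exact (totalDegree_mul F G).trans (by omega)

theorem V_pow {a : ℕ} {F : MvPolynomial σ K} (hF : F ∈ restrictTotalDegree σ K a) (k : ℕ) :
    F ^ k ∈ restrictTotalDegree σ K (k * a) := by
  rw [mem_restrictTotalDegree] at hF ⊢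
  exact (totalDegree_pow F k).trans (Nat.mul_le_mul_left _ hF)

variable [Finite σ]

theorem hF_anti {I J : Ideal (MvPolynomial σ K)} (hIJ : I ≤ J) (n : ℕ) : hF J n ≤ hF I n := by
  have e : (Ideal.Quotient.mkₐ K J).toLinearMap =
      (Ideal.Quotient.factorₐ K hIJ).toLinearMap ∘ₗ (Ideal.Quotient.mkₐ K I).toLinearMap := by
    ext x
    rfl
  unfold hF
  rw [e, Submodule.map_comp]
  exact Submodule.finrank_map_le _ _

/-! ### Taylor expansion modulo powers of the maximal ideal -/

omit [Finite σ] in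
theorem taylor_one (p : σ → K) (F : MvPolynomial σ K) :
    ∃ L ∈ restrictTotalDegree σ K 1, F - L ∈ m p ^ 2 := by
  induction F using MvPolynomial.induction_on with
  | C a =>
    refine ⟨C a, ?_, by simp⟩
    rw [mem_restrictTotalDegree]; simp
  | add F G hF hG =>
    obtain ⟨L, hL, hF⟩ := hF
    obtain ⟨L', hL', hG⟩ := hG
    refine ⟨L + L', add_mem hL hL', ?_⟩
    have : F + G - (L + L') = (F - L) + (G - L') := by ring
    rw [this]
    exact add_mem hF hG
  | mul_X F i hF =>
    obtain ⟨L, hL, hF⟩ := hF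
    refine ⟨C (eval p L) * X i + C (p i) * (L - C (eval p L)), ?_, ?_⟩
    · rw [mem_restrictTotalDegree] at hL ⊢
      refine (totalDegree_add _ _).trans (max_le ?_ ?_)
      · refine (totalDegree_mul _ _).trans ?_
        rw [totalDegree_C]
        simp
      · refine (totalDegree_mul _ _).trans ?_
        rw [totalDegree_C, zero_add]
        refine (totalDegree_sub _ _).trans (max_le hL ?_)
        rw [totalDegree_C]
        omega
    · have : F * X i - (C (eval p L) * X i + C (p i) * (L - C (eval p L))) =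
          (F - L) * X i + (L - C (eval p L)) * (X i - C (p i)) := by ring
      rw [this]
      refine add_mem (Ideal.mul_mem_right _ _ hF) ?_
      rw [pow_two]
      refine Ideal.mul_mem_mul ?_ ?_ <;> rw [mem_m] <;> simp

omit [Finite σ] in
theorem taylor_pow (p : σ → K) (k : ℕ) (F : MvPolynomial σ K) (hF : F ∈ m p ^ k) :
    ∃ G ∈ restrictTotalDegree σ K k, G ∈ m p ^ k ∧ F - G ∈ m p ^ (k + 1) := by
  induction k generalizing F with
  | zero =>
    refine ⟨C (eval p F), ?_, by simp, ?_⟩
    · rw [mem_restrictTotalDegree]; simp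
    · rw [zero_add, pow_one, mem_m]; simp
  | succ k ih =>
    rw [pow_succ] at hF
    induction hF using Submodule.mul_induction_on' with
    | mem_mul_mem F hF G hG =>
      obtain ⟨F', hF', hF'm, hFF⟩ := ih F hF
      obtain ⟨L, hL, hGL⟩ := taylor_one p G
      have hLm : L ∈ m p := by
        have h1 : G - L ∈ m p := Ideal.pow_le_self two_ne_zero hGL
        have h2 := sub_mem hG h1
        simpa using h2
      refine ⟨F' * L, V_mul hF' hL, ?_, ?_⟩
      · rw [pow_succ]
        exact Ideal.mul_mem_mul hF'm hLm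
      · have : F * G - F' * L = (F - F') * G + F' * (G - L) := by ring
        rw [this]
        refine add_mem ?_ ?_
        · rw [pow_succ]
          exact Ideal.mul_mem_mul hFF hG
        · rw [show k + 1 + 1 = k + 2 from rfl, pow_add]
          exact Ideal.mul_mem_mul hF'm hGL
    | add F hF G hG h1 h2 =>
      obtain ⟨F', a1, a2, a3⟩ := h1
      obtain ⟨G', b1, b2, b3⟩ := h2
      refine ⟨F' + G', add_mem a1 b1, add_mem a2 b2, ?_⟩
      have : F + G - (F' + G') = (F - F') + (G - G') := by ring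
      rw [this]
      exact add_mem a3 b3

omit [Finite σ] in
/-- Taylor expansion at `p`: every polynomial is a polynomial of degree at most `k` modulo
`m p ^ (k + 1)` -/
theorem taylor (p : σ → K) (k : ℕ) (F : MvPolynomial σ K) :
    ∃ G ∈ restrictTotalDegree σ K k, F - G ∈ m p ^ (k + 1) := by
  induction k with
  | zero =>
    obtain ⟨G, h1, -, h2⟩ := taylor_pow p 0 F (by simp)
    exact ⟨G, h1, h2⟩
  | succ k ih =>
    obtain ⟨G, h1, h2⟩ := ih
    obtain ⟨G', h3, -, h4⟩ := taylor_pow p (k + 1) _ h2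
    refine ⟨G + G', add_mem (V_mono (Nat.le_succ k) h1) h3, ?_⟩
    have : F - (G + G') = F - G - G' := by ring
    rw [this]
    exact h4

omit [Finite σ] in
/-- the same with a unit factor -/
theorem taylor_unit (p : σ → K) (k : ℕ) (q : MvPolynomial σ K) (hq : eval p q = 1)
    (F : MvPolynomial σ K) :
    ∃ G ∈ restrictTotalDegree σ K k, F - q ^ (k + 1) * G ∈ m p ^ (k + 1) := by
  -- the inverse of `q` modulo `m p ^ (k + 1)`
  set u : MvPolynomial σ K := ∑ i ∈ Finset.range (k + 1), (1 - q) ^ i with hu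
  have h1 : 1 - q * u = (1 - q) ^ (k + 1) := by
    have := mul_neg_geom_sum (1 - q) (k + 1)
    rw [sub_sub_cancel] at this
    rw [hu, this]; ring
  have h2 : 1 - q * u ∈ m p ^ (k + 1) := by
    rw [h1]
    refine Ideal.pow_mem_pow ?_ _
    rw [mem_m]; simp [hq]
  have h3 : 1 - (q * u) ^ (k + 1) ∈ m p ^ (k + 1) := by
    have : (1 - q * u) ∣ 1 - (q * u) ^ (k + 1) := by
      simpa using sub_dvd_pow_sub_pow (1 : MvPolynomial σ K) (q * u) (k + 1)
    exact Ideal.mem_of_dvd _ this h2
  obtain ⟨G, hG, hFG⟩ := taylor p k (u ^ (k + 1) * F)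
  refine ⟨G, hG, ?_⟩
  have : F - q ^ (k + 1) * G = (1 - (q * u) ^ (k + 1)) * F +
      q ^ (k + 1) * (u ^ (k + 1) * F - G) := by ring
  rw [this]
  exact add_mem (Ideal.mul_mem_right _ _ h3) (Ideal.mul_mem_left _ _ hFG)

/-- **Separation lemma.** -/
theorem sep (I : Ideal (MvPolynomial σ K)) (Y : Finset (σ → K))
    (q : (σ → K) → MvPolynomial σ K) (J : (σ → K) → Ideal (MvPolynomial σ K)) {T k : ℕ}
    (hq : ∀ p ∈ Y, q p ∈ restrictTotalDegree σ K T)
    (hq1 : ∀ p ∈ Y, eval p (q p) = 1)
    (hq0 : ∀ p ∈ Y, ∀ p' ∈ Y, p' ≠ p → eval p' (q p) = 0)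
    (hJ : ∀ p ∈ Y, m p ^ (k + 1) ≤ J p) (hIJ : ∀ p ∈ Y, I ≤ J p) :
    ∑ p ∈ Y, Module.finrank K (MvPolynomial σ K ⧸ J p) ≤ hF I ((k + 1) * T + k) := by
  classical
  -- the quotients are finite dimensional
  have hfin : ∀ p : Y, Module.Finite K (MvPolynomial σ K ⧸ J p) := by
    intro p
    refine Module.Finite.of_surjective
      ((Ideal.Quotient.mkₐ K (J p)).toLinearMap ∘ₗ (restrictTotalDegree σ K k).subtype) ?_
    intro c
    obtain ⟨F, rfl⟩ := Ideal.Quotient.mk_surjective c
    obtain ⟨G, hG, hFG⟩ := taylor (p : σ → K) k F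
    refine ⟨⟨G, hG⟩, ?_⟩
    have : F - G ∈ J p := hJ p p.2 hFG
    simpa using ((Ideal.Quotient.eq (I := J (p : σ → K))).2 this).symm
  -- the map to the product
  let Φ : (MvPolynomial σ K ⧸ I) →ₗ[K] (∀ p : Y, MvPolynomial σ K ⧸ J p) :=
    LinearMap.pi fun p => (Ideal.Quotient.factorₐ K (hIJ p p.2)).toLinearMap
  have hΦ : ∀ (F : MvPolynomial σ K) (p : Y),
      Φ (Ideal.Quotient.mk I F) p = Ideal.Quotient.mk (J p) F := by
    intro F p
    rfl
  set W := (restrictTotalDegree σ K ((k + 1) * T + k)).map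
    (Ideal.Quotient.mkₐ K I).toLinearMap with hW
  have htop : W.map Φ = ⊤ := by
    rw [eq_top_iff]
    intro c _
    choose F hF using fun p : Y => Ideal.Quotient.mk_surjective (c p)
    choose G hG hFG using fun p : Y => taylor_unit (p : σ → K) k (q p) (hq1 p p.2) (F p)
    refine ⟨Ideal.Quotient.mk I (∑ p : Y, q p ^ (k + 1) * G p), ?_, ?_⟩
    · refine ⟨_, ?_, rfl⟩
      refine Submodule.sum_mem _ fun p _ => ?_
      exact V_mul (V_pow (hq p p.2) _) (hG p)
    · funext p'
      rw [hΦ, ← hF p', eq_comm, Ideal.Quotient.eq, ← Finset.add_sum_erase _ _ (Finset.mem_univ p'),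
        ← sub_sub]
      refine sub_mem (hJ p' p'.2 (hFG p')) ?_
      refine Ideal.sum_mem _ fun p hp => Ideal.mul_mem_right _ _ ?_
      refine hJ p' p'.2 (Ideal.pow_mem_pow ?_ _)
      rw [mem_m]
      refine hq0 p p.2 p' p'.2 ?_
      intro hpp
      exact Finset.ne_of_mem_erase hp (Subtype.ext hpp.symm)
  have h1 : Module.finrank K (∀ p : Y, MvPolynomial σ K ⧸ J p) ≤ Module.finrank K W := by
    rw [← finrank_top K (∀ p : Y, MvPolynomial σ K ⧸ J p), ← htop]
    exact Submodule.finrank_map_le _ _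
  rw [Module.finrank_pi_fintype] at h1
  rw [← Finset.sum_coe_sort]
  exact h1

/-! ### selection of independent points and the lower bound [Lo] -/

/-- independent points with dual functions -/
theorem exists_dual (Y : Finset (σ → K)) (n : ℕ) :
    ∃ Y₁ ⊆ Y, Y₁.card = rkY Y n ∧ ∃ q : (σ → K) → MvPolynomial σ K,
      ∀ p ∈ Y₁, q p ∈ restrictTotalDegree σ K n ∧ eval p (q p) = 1 ∧
        ∀ p' ∈ Y₁, p' ≠ p → eval p' (q p) = 0 := by
  classical
  set V := restrictTotalDegree σ K n with hV
  let ev : (σ → K) → Module.Dual K V := fun p =>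
    ((MvPolynomial.aeval p : MvPolynomial σ K →ₐ[K] K).toLinearMap).domRestrict V
  have hev : ∀ (p : σ → K) (F : V), ev p F = eval p (F : MvPolynomial σ K) := by
    intro p F
    simp [ev, MvPolynomial.aeval_eq_eval]
  obtain ⟨κ, a, ha, hspan, hli⟩ := exists_linearIndependent' K (fun p : Y => ev p)
  have hκ : Finite κ := Finite.of_injective a ha
  have : Fintype κ := Fintype.ofFinite κ
  -- evaluation at the selected points is surjective
  let Ev : V →ₗ[K] (κ → K) := LinearMap.pi fun i => ev (a i)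
  have hsurj : LinearMap.range Ev = ⊤ := by
    by_contra hne
    obtain ⟨f, hf0, hf⟩ := Submodule.exists_le_ker_of_lt_top _ (lt_top_iff_ne_top.2 hne)
    apply hf0
    have h1 : ∀ F : V, ∑ i, f (Pi.single i 1) • ev (a i) F = 0 := by
      intro F
      have h2 : f (Ev F) = 0 := hf ⟨F, rfl⟩
      rw [← h2, pi_eq_sum_univ' (Ev F), map_sum]
      refine Finset.sum_congr rfl fun i _ => ?_
      rw [map_smul, smul_eq_mul, smul_eq_mul, mul_comm]
      congr 2
    have h3 : ∑ i, f (Pi.single i 1) • ev (a i) = 0 := by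
      ext F
      simpa using h1 F
    have h4 := Fintype.linearIndependent_iff.1 hli (fun i => f (Pi.single i 1)) h3
    refine LinearMap.pi_ext' fun i => ?_
    ext
    simpa using h4 i
  refine ⟨Finset.univ.image fun i => (a i : σ → K), ?_, ?_, ?_⟩
  · intro p hp
    obtain ⟨i, -, rfl⟩ := Finset.mem_image.1 hp
    exact (a i).2
  · have hinj : Function.Injective fun i => (a i : σ → K) := fun i j hij => ha (Subtype.ext hij)
    rw [Finset.card_image_of_injective _ hinj, Finset.card_univ]
    -- kernels agree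
    let EvY : V →ₗ[K] (Y → K) := (resA Y).toLinearMap.domRestrict V
    have hker : LinearMap.ker Ev = LinearMap.ker EvY := by
      ext F
      rw [LinearMap.mem_ker, LinearMap.mem_ker]
      constructor
      · intro hF
        ext p
        have hp : ev (p : σ → K) ∈ Submodule.span K (Set.range ((fun p : Y => ev p) ∘ a)) := by
          rw [hspan]
          exact Submodule.subset_span ⟨p, rfl⟩
        have key : ∀ φ ∈ Submodule.span K (Set.range ((fun p : Y => ev p) ∘ a)), φ F = 0 := by
          intro φ hφ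
          induction hφ using Submodule.span_induction with
          | mem x hx =>
            obtain ⟨i, rfl⟩ := hx
            exact congrFun hF i
          | zero => simp
          | add x y _ _ hx hy => simp [hx, hy]
          | smul c x _ hx => simp [hx]
        have h5 := key _ hp
        rw [hev] at h5
        show resA Y (F : MvPolynomial σ K) p = 0
        rw [resA_apply, h5]
      · intro hF
        ext i
        have h5 := congrFun hF (a i)
        have h6 : resA Y (F : MvPolynomial σ K) (a i) = 0 := h5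
        rw [resA_apply] at h6
        show ev (a i) F = 0
        rw [hev, h6]
    have h1 := LinearMap.finrank_range_add_finrank_ker Ev
    have h2 := LinearMap.finrank_range_add_finrank_ker EvY
    rw [hsurj, finrank_top, Module.finrank_fintype_fun_eq_card] at h1
    have h3 : LinearMap.range EvY = V.map (resA Y).toLinearMap :=
      LinearMap.range_domRestrict _ _
    rw [h3, ← hker] at h2
    unfold rkY
    rw [← hV]
    omega
  · choose F hF using fun i : κ => (LinearMap.range_eq_top.1 hsurj) (Pi.single i 1)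
    refine ⟨fun p => if hp : ∃ i, (a i : σ → K) = p then (F hp.choose : MvPolynomial σ K) else 0,
      ?_⟩
    intro p hp
    obtain ⟨i, -, rfl⟩ := Finset.mem_image.1 hp
    have hex : ∃ j, (a j : σ → K) = a i := ⟨i, rfl⟩
    have hch : hex.choose = i := ha (Subtype.ext hex.choose_spec)
    simp only [dif_pos hex, hch]
    refine ⟨(F i).2, ?_, ?_⟩
    · rw [← hev]
      have := congrFun (hF i) i
      rw [Pi.single_eq_same] at this
      exact this
    · intro p' hp' hne
      obtain ⟨j, -, rfl⟩ := Finset.mem_image.1 hp'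
      rw [← hev]
      have := congrFun (hF i) j
      have hji : j ≠ i := fun hh => hne (by rw [hh])
      rw [Pi.single_eq_of_ne hji] at this
      exact this

/-- **[Lo] for germs**: `J p` is the ideal of the `(k+1)`-jets of the germ at `p`. -/
theorem lo (I : Ideal (MvPolynomial σ K)) (Y : Finset (σ → K))
    (J : (σ → K) → Ideal (MvPolynomial σ K)) {T k e : ℕ}
    (hJ : ∀ p ∈ Y, m p ^ (k + 1) ≤ J p) (hIJ : ∀ p ∈ Y, I ≤ J p)
    (hdim : ∀ p ∈ Y, (k + e).choose e ≤ Module.finrank K (MvPolynomial σ K ⧸ J p)) :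
    rkY Y T * (k + e).choose e ≤ hF I ((k + 1) * T + k) := by
  obtain ⟨Y₁, hY, hcard, q, hq⟩ := exists_dual Y T
  have h1 := sep I Y₁ q J (T := T) (k := k) (fun p hp => (hq p hp).1)
    (fun p hp => (hq p hp).2.1) (fun p hp p' hp' hne => (hq p hp).2.2 p' hp' hne)
    (fun p hp => hJ p (hY hp)) (fun p hp => hIJ p (hY hp))
  refine le_trans ?_ h1
  rw [← hcard, ← smul_eq_mul, ← Finset.sum_const]
  exact Finset.sum_le_sum fun p hp => hdim p (hY hp)

/-- **(M)**: the multiplicities of an ideal at points separated by polynomials of degree `T`. -/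
theorem mult_sum_le (I : Ideal (MvPolynomial σ K)) (Y : Finset (σ → K)) {T k : ℕ}
    (hY : rkY Y T = Y.card) :
    ∑ p ∈ Y, Module.finrank K (MvPolynomial σ K ⧸ (I ⊔ m p ^ (k + 1))) ≤
      hF I ((k + 1) * T + k) := by
  obtain ⟨Y₁, hYY, hcard, q, hq⟩ := exists_dual Y T
  have hYe : Y₁ = Y := Finset.eq_of_subset_of_card_le hYY (by rw [hcard, hY])
  subst hYe
  exact sep I Y₁ q (fun p => I ⊔ m p ^ (k + 1)) (fun p hp => (hq p hp).1)
    (fun p hp => (hq p hp).2.1) (fun p hp p' hp' hne => (hq p hp).2.2 p' hp' hne)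
    (fun p _ => le_sup_right) (fun p _ => le_sup_left)

/-! ### additivity over incomparable primes -/

/-- one step: if `P` is prime and `F ∈ P' \ P` then the Hilbert function of `P` increases by the one of `P'` -/
theorem step {P P' : Ideal (MvPolynomial σ K)} (hP : P.IsPrime) (hPP : P ≤ P')
    {F : MvPolynomial σ K} (hFP' : F ∈ P') (hFP : F ∉ P) {a n : ℕ} (ha : F.totalDegree ≤ a)
    (han : a ≤ n) : hF P' n + hF P (n - a) ≤ hF P n := by
  classical
  let mF : (MvPolynomial σ K ⧸ P) →ₗ[K] (MvPolynomial σ K ⧸ P) :=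
    LinearMap.mulLeft K (Ideal.Quotient.mkₐ K P F)
  have hm : Function.Injective mF := by
    rw [injective_iff_map_eq_zero]
    intro x hx
    obtain ⟨g, rfl⟩ := Ideal.Quotient.mkₐ_surjective K P x
    have h1 : Ideal.Quotient.mkₐ K P (F * g) = 0 := by
      rw [map_mul]; exact hx
    rw [Ideal.Quotient.mkₐ_eq_mk, Ideal.Quotient.eq_zero_iff_mem] at h1
    rw [Ideal.Quotient.mkₐ_eq_mk, Ideal.Quotient.eq_zero_iff_mem]
    exact (hP.mem_or_mem h1).resolve_left hFP
  have hfm : F ∈ restrictTotalDegree σ K a := (mem_restrictTotalDegree _ _ _).2 ha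
  have e : (Ideal.Quotient.mkₐ K P').toLinearMap =
      (Ideal.Quotient.factorₐ K hPP).toLinearMap ∘ₗ (Ideal.Quotient.mkₐ K P).toLinearMap := by
    ext x
    rfl
  have := core ((restrictTotalDegree σ K n).map (Ideal.Quotient.mkₐ K P).toLinearMap)
    ((restrictTotalDegree σ K (n - a)).map (Ideal.Quotient.mkₐ K P).toLinearMap) mF hm
    (by
      rintro _ ⟨_, ⟨g, hg, rfl⟩, rfl⟩
      refine ⟨F * g, ?_, ?_⟩
      · have := mul_mem_deg hfm hg
        rwa [Nat.add_sub_cancel' han] at this
      · simp [mF])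
    (Ideal.Quotient.factorₐ K hPP).toLinearMap
    (by
      rintro _ ⟨g, hg, rfl⟩
      have h2 : mF ((Ideal.Quotient.mkₐ K P).toLinearMap g) =
          Ideal.Quotient.mkₐ K P (F * g) := by simp [mF]
      rw [h2]
      show Ideal.Quotient.mk P' (F * g) = 0
      rw [Ideal.Quotient.eq_zero_iff_mem]
      exact Ideal.mul_mem_right _ _ hFP')
  unfold hF
  rw [e, Submodule.map_comp]
  exact this

/-- telescoping -/
theorem step_sum {P P' : Ideal (MvPolynomial σ K)} (hP : P.IsPrime) (hPP : P ≤ P')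
    {F : MvPolynomial σ K} (hFP' : F ∈ P') (hFP : F ∉ P) {a : ℕ} (ha : F.totalDegree ≤ a)
    (n B : ℕ) : B * hF P' n ≤ hF P (n + B * a) := by
  induction B with
  | zero => simp
  | succ B ih =>
    have h1 := step hP hPP hFP' hFP ha (n := n + (B + 1) * a) (by rw [add_mul]; omega)
    have h2 : n + (B + 1) * a - a = n + B * a := by rw [add_mul]; omega
    rw [h2] at h1
    have h3 : hF P' n ≤ hF P' (n + (B + 1) * a) := hF_mono_deg _ (by omega)
    have h4 : (B + 1) * hF P' n = B * hF P' n + hF P' n := by ring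
    rw [h4]
    linarith

/-- **incomparability** of primes with the same growth exponent -/
theorem not_lt {P P' : Ideal (MvPolynomial σ K)} (hP : P.IsPrime) {e C : ℕ}
    (hup : ∀ n, hF P n ≤ C * (n + 1) ^ e) (hlo : ∀ n, (n + e).choose e ≤ hF P' n) :
    ¬ P < P' := by
  intro hlt
  obtain ⟨F, hFP', hFP⟩ := SetLike.exists_of_lt hlt
  set a := F.totalDegree + 1 with ha
  -- with `n = B a` one gets `B * (B a)^e / e! ≤ C (2 B a + 1)^e`
  have key : ∀ B : ℕ, B * (B * a + 1) ^ e ≤ (C * 2 ^ e * e.factorial) * (B * a + 1) ^ e := by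
    intro B
    have h1 := step_sum hP hlt.le hFP' hFP (Nat.le_succ _) (B * a) B
    have h2 := hup (B * a + B * a)
    have h3 := hlo (B * a)
    have h4 : (B * a + 1) ^ e ≤ e.factorial * (B * a + e).choose e := by
      rw [← Nat.ascFactorial_eq_factorial_mul_choose]
      exact Nat.pow_succ_le_ascFactorial _ _
    have h5 : (B * a + B * a + 1) ^ e ≤ 2 ^ e * (B * a + 1) ^ e := by
      rw [← mul_pow]
      exact Nat.pow_le_pow_left (by omega) _
    calc B * (B * a + 1) ^ e ≤ B * (e.factorial * (B * a + e).choose e) :=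
          Nat.mul_le_mul_left _ h4
      _ = e.factorial * (B * (B * a + e).choose e) := by ring
      _ ≤ e.factorial * (B * hF P' (B * a)) := by gcongr
      _ ≤ e.factorial * (C * (B * a + B * a + 1) ^ e) :=
          Nat.mul_le_mul_left _ (h1.trans h2)
      _ ≤ e.factorial * (C * (2 ^ e * (B * a + 1) ^ e)) := by gcongr
      _ = _ := by ring
  have h6 := key (C * 2 ^ e * e.factorial + 1)
  have h7 : 0 < ((C * 2 ^ e * e.factorial + 1) * a + 1) ^ e := by positivity
  have h8 := Nat.le_of_mul_le_mul_right h6 h7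
  omega

/-- **(G2)** additivity of Hilbert functions over pairwise incomparable primes -/
theorem additive {ι : Type*} [Fintype ι] (P : ι → Ideal (MvPolynomial σ K))
    (hP : ∀ i, (P i).IsPrime) (hinc : ∀ i j, i ≠ j → ¬ P i ≤ P j) :
    ∃ a : ℕ, ∀ n, ∑ i, hF (P i) n ≤ hF (⨅ i, P i) (n + a) := by
  classical
  -- separating elements
  have hg : ∀ i, ∃ g : MvPolynomial σ K, g ∉ P i ∧ ∀ j, j ≠ i → g ∈ P j := by
    intro i
    have h1 : ¬ (Finset.univ.erase i).inf P ≤ P i := by
      intro hle
      rw [Ideal.IsPrime.inf_le' (hP i)] at hle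
      obtain ⟨j, hj, hle⟩ := hle
      exact hinc j i (Finset.ne_of_mem_erase hj) hle
    obtain ⟨g, hg1, hg2⟩ := SetLike.not_le_iff_exists.1 h1
    refine ⟨g, hg2, fun j hj => ?_⟩
    have : (Finset.univ.erase i).inf P ≤ P j :=
      Finset.inf_le (Finset.mem_erase.2 ⟨hj, Finset.mem_univ _⟩)
    exact this hg1
  choose g hgi hgj using hg
  refine ⟨∑ i, (g i).totalDegree, fun n => ?_⟩
  have hle : ∀ i, (⨅ i, P i) ≤ P i := fun i => iInf_le _ i
  let Φ : (MvPolynomial σ K ⧸ (⨅ i, P i)) →ₗ[K] (∀ i, MvPolynomial σ K ⧸ P i) :=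
    LinearMap.pi fun i => (Ideal.Quotient.factorₐ K (hle i)).toLinearMap
  let W : ∀ i, Submodule K (MvPolynomial σ K ⧸ P i) := fun i =>
    (restrictTotalDegree σ K n).map (Ideal.Quotient.mkₐ K (P i)).toLinearMap
  let Θ : (∀ i, W i) →ₗ[K] (∀ i, MvPolynomial σ K ⧸ P i) :=
    LinearMap.pi fun i => (LinearMap.mulLeft K (Ideal.Quotient.mk (P i) (g i))) ∘ₗ
      (W i).subtype ∘ₗ LinearMap.proj i
  have hΘ : ∀ w i, Θ w i = Ideal.Quotient.mk (P i) (g i) * (w i : MvPolynomial σ K ⧸ P i) := by
    intro w i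
    rfl
  have hinj : Function.Injective Θ := by
    rw [injective_iff_map_eq_zero]
    intro w hw
    funext i
    have h1 := congrFun hw i
    rw [hΘ] at h1
    obtain ⟨G, hG⟩ := Ideal.Quotient.mk_surjective (w i : MvPolynomial σ K ⧸ P i)
    rw [← hG] at h1
    rw [← map_mul, Pi.zero_apply, Ideal.Quotient.eq_zero_iff_mem] at h1
    have h2 := ((hP i).mem_or_mem h1).resolve_left (hgi i)
    apply Subtype.ext
    rw [← hG]
    exact Ideal.Quotient.eq_zero_iff_mem.2 h2
  have hrange : LinearMap.range Θ ≤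
      ((restrictTotalDegree σ K (n + ∑ i, (g i).totalDegree)).map
        (Ideal.Quotient.mkₐ K (⨅ i, P i)).toLinearMap).map Φ := by
    rintro _ ⟨w, rfl⟩
    choose G hG hGw using fun i => (w i).2
    refine ⟨Ideal.Quotient.mk _ (∑ i, G i * g i), ⟨_, ?_, rfl⟩, ?_⟩
    · refine Submodule.sum_mem _ fun i _ => ?_
      refine V_mul (hG i) ?_
      rw [mem_restrictTotalDegree]
      exact Finset.single_le_sum (f := fun i => (g i).totalDegree) (fun _ _ => Nat.zero_le _)
        (Finset.mem_univ i)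
    · funext j
      rw [hΘ]
      show Ideal.Quotient.mk (P j) (∑ i, G i * g i) = _
      have h1 : (w j : MvPolynomial σ K ⧸ P j) = Ideal.Quotient.mk (P j) (G j) := (hGw j).symm
      rw [h1, ← map_mul, Ideal.Quotient.eq, ← Finset.add_sum_erase _ _ (Finset.mem_univ j)]
      have h2 : G j * g j + ∑ i ∈ Finset.univ.erase j, G i * g i - g j * G j =
          ∑ i ∈ Finset.univ.erase j, G i * g i := by ring
      rw [h2]
      refine Ideal.sum_mem _ fun i hi => Ideal.mul_mem_left _ _ ?_
      exact hgj i j (Finset.ne_of_mem_erase hi).symm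
  have hfree : ∀ i, Module.Free K (W i) := fun i => Module.Free.of_divisionRing K (W i)
  have hfin : ∀ i, Module.Finite K (W i) := fun i => inferInstance
  have h1 : ∑ i, hF (P i) n = Module.finrank K (∀ i, W i) :=
    (Module.finrank_pi_fintype K (M := fun i => W i)).symm
  rw [h1, ← LinearMap.finrank_range_of_inj hinj]
  exact (Submodule.finrank_mono hrange).trans (Submodule.finrank_map_le _ _)

/-- **(LIM)** letting `k` tend to infinity -/
theorem lim_bound {A B T a e k₀ : ℕ}
    (hAB : ∀ k, k₀ ≤ k → A * (k + e).choose e ≤ B * ((k + 1) * (T + 1) + a) ^ e) :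
    A ≤ e.factorial * B * (T + 1) ^ e := by
  by_contra hlt
  push Not at hlt
  -- `A (k+1)^e ≤ e! B ((k+1)(T+1) + a)^e`
  have h1 : ∀ k, k₀ ≤ k → (A : ℝ) ≤ e.factorial * B * ((T + 1 : ℝ) + a / (k + 1)) ^ e := by
    intro k hk
    have h2 : A * (k + 1) ^ e ≤ e.factorial * B * ((k + 1) * (T + 1) + a) ^ e := by
      have h3 : (k + 1) ^ e ≤ e.factorial * (k + e).choose e := by
        rw [← Nat.ascFactorial_eq_factorial_mul_choose]
        exact Nat.pow_succ_le_ascFactorial _ _
      calc A * (k + 1) ^ e ≤ A * (e.factorial * (k + e).choose e) := Nat.mul_le_mul_left _ h3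
        _ = e.factorial * (A * (k + e).choose e) := by ring
        _ ≤ e.factorial * (B * ((k + 1) * (T + 1) + a) ^ e) := Nat.mul_le_mul_left _ (hAB k hk)
        _ = _ := by ring
    have h4 : (A : ℝ) * (k + 1 : ℝ) ^ e ≤
        e.factorial * B * ((k + 1 : ℝ) * (T + 1) + a) ^ e := by exact_mod_cast h2
    have h5 : ((k + 1 : ℝ) * (T + 1) + a) = (k + 1 : ℝ) * ((T + 1 : ℝ) + a / (k + 1)) := by
      field_simp
    rw [h5, mul_pow] at h4
    have h6 : (0 : ℝ) < (k + 1 : ℝ) ^ e := by positivity
    refine le_of_mul_le_mul_right ?_ h6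
    calc (A : ℝ) * (k + 1 : ℝ) ^ e ≤ _ := h4
      _ = _ := by ring
  have h2 : Filter.Tendsto (fun k : ℕ => (e.factorial : ℝ) * B * ((T + 1 : ℝ) + a / (k + 1)) ^ e)
      Filter.atTop (nhds ((e.factorial : ℝ) * B * ((T + 1 : ℝ) + 0) ^ e)) := by
    refine Filter.Tendsto.const_mul _ (Filter.Tendsto.pow ?_ _)
    refine Filter.Tendsto.const_add _ ?_
    have := (tendsto_one_div_add_atTop_nhds_zero_nat (𝕜 := ℝ)).const_mul (a : ℝ)
    rw [mul_zero] at this
    refine this.congr fun k => ?_
    rw [mul_one_div]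
  have h3 : (A : ℝ) ≤ (e.factorial : ℝ) * B * ((T + 1 : ℝ) + 0) ^ e :=
    ge_of_tendsto h2 (Filter.eventually_atTop.2 ⟨k₀, h1⟩)
  rw [add_zero] at h3
  have h4 : A ≤ e.factorial * B * (T + 1) ^ e := by exact_mod_cast h3
  omega

end Vale.Agent.P054.T2.H163
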