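import Vale.Agent.P054.T2.H428.EdgeB
import Vale.Agent.P054.T2.H395.SideJets
import Vale.Agent.P054.T2.H701.GoodSide
import Vale.Agent.P054.T2.H82.InstSide
import Vale.Agent.P054.T2.H83.Vzero
import Vale.Agent.P054.T2.H455.C3
import Vale.Agent.P054.T2.H428.MainC
import Vale.Agent.P054.T2.H431.CntOff

set_option autoImplicit false
set_option linter.all false

/-!
# P054 / T2, section C: the case theorem at one good edge

`V_cls`: the direction space is constant on a class.  `cnt_lin`, `cnt_ste`, `cnt_N`: the one-sided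
cases.  `hcase`: countable from one end or bad x bad.
-/

namespace Vale.Agent.P054.T2.H163

open MvPolynomial Finset Module
open SecC
open H686 (mu Qf Bf zt dists E)
open H580 (Vw hilbF)
open H930 (germ grad)
open H192 (Iso)
open H455 (Sep)

variable {n : ℕ} {A : Finset (ZZ n × ZZ n)} {W D σ v : ℕ}

theorem linL_congr (l : ZZ n →ₗ[ℝ] ℝ) {r r' : ZZ n} (h : l r = l r') : linL l r = linL l r' := by
  unfold linL
  rw [h]

theorem linL_mem_cls (S : Side n A W D σ v) {e e' : ZZ n × ZZ n} (he : e' ∈ S.cls e)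
    {l : ZZ n →ₗ[ℝ] ℝ} (hl : linL l e.2 ∈ S.Pr e) : linL l e'.2 ∈ S.Pr e' := by
  obtain ⟨h1, h2, h3⟩ := S.mem_cls.1 he
  have h4 : linL l e.2 ∈ S.Pr e' := by
    unfold Side.Pr at hl ⊢
    rw [h3]; exact hl
  have h5 := S.eval_eq_zero_of_mem_Pr h1 h4
  rw [eval_linL] at h5
  rw [linL_congr l (sub_eq_zero.1 h5)]
  exact h4

theorem cls_symm (S : Side n A W D σ v) {e e' : ZZ n × ZZ n} (he : e ∈ A) (h : e' ∈ S.cls e) :
    e ∈ S.cls e' := by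
  obtain ⟨h1, h2, h3⟩ := S.mem_cls.1 h
  exact S.mem_cls.2 ⟨he, h2.symm, h3.symm⟩

/-- the direction space is constant on a class -/
theorem V_cls (S : Side n A W D σ v) {e e' : ZZ n × ZZ n} (he : e ∈ A) (h : e' ∈ S.cls e) :
    S.V e' = S.V e := by
  apply le_antisymm
  · intro x hx l hl
    exact hx l (linL_mem_cls S h hl)
  · intro x hx l hl
    exact hx l (linL_mem_cls S (cls_symm S he h) hl)

theorem not_mem_V_cls (S : Side n A W D σ v) {e e' : ZZ n × ZZ n} (he : e ∈ A)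
    (h : e' ∈ S.cls e) (hw : e.1 - e.2 ∉ S.V e) : e'.1 - e'.2 ∉ S.V e' := by
  rw [V_cls S he h]
  intro h1
  apply hw
  have h2 := S.sub_mem_V h
  have h3 := (S.V e).add_mem h1 h2
  rw [(S.mem_cls.1 h).2.1] at h3
  have h4 : e.1 - e'.2 + (e'.2 - e.2) = e.1 - e.2 := by abel
  rwa [h4] at h3

/-- case LINEAR -/
theorem cnt_lin (S : Side n A W D σ v) {e : ZZ n × ZZ n} (he : e ∈ A)
    (hw : e.1 - e.2 ∉ S.V e) (hinj : ZInj (S.V e ⊔ Submodule.span ℝ {e.1 - e.2}))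
    {N : ℕ} (hsep : Sep (fun e' : ZZ n × ZZ n => pt e'.2) N (S.cls e)) (G : ℕ) : S.Cnt N G e :=
  H455.cnt_linear S (H83.v_zero_linear S he (S.V e) le_rfl hw hinj) e (H395.hcomap S e) (S.V e)
    (fun e' h => S.sub_mem_V h) hw hinj hsep G

/-- `ζ` maps an `(n + 1)`-dimensional space on which it is injective onto everything -/
theorem exists_lift (U : Submodule ℝ (ZZ n)) (hd : finrank ℝ U = n + 1) (hinj : ZInj U)
    (y : Fin (n + 1) → ℝ) : ∃ x ∈ U, x.1 = y := by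
  let φ : U →ₗ[ℝ] (Fin (n + 1) → ℝ) := (LinearMap.fst ℝ _ _).comp U.subtype
  have h1 : Function.Injective φ := by
    rw [injective_iff_map_eq_zero]
    rintro ⟨x, hx⟩ h
    exact Subtype.ext (hinj x hx h)
  have h2 : finrank ℝ U = finrank ℝ (Fin (n + 1) → ℝ) := by
    rw [hd, Module.finrank_fin_fun]
  have h3 : Function.Surjective φ := (LinearMap.injective_iff_surjective_of_finrank_eq_finrank h2).1 h1
  obtain ⟨⟨x, hx⟩, hy⟩ := h3 y
  exact ⟨x, hx, hy⟩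

/-- case STEREO -/
theorem cnt_ste (S : Side n A W D σ v) {e : ZZ n × ZZ n} (he : e ∈ A)
    (hw : e.1 - e.2 ∉ S.V e) (hd : finrank ℝ (S.V e) = n + 1) (hinj : ZInj (S.V e))
    (hste : ∀ e' ∈ A, Ste S e')
    {N : ℕ} (hsep : Sep (fun e' : ZZ n × ZZ n => pt e'.2) N (S.cls e)) (G : ℕ) :
    S.Cnt (2 * N) G e := by
  obtain ⟨x, hx, hx1⟩ := exists_lift (S.V e) hd hinj (e.1.1 - e.2.1)
  set s' : ZZ n := e.2 + x with hs'
  have h1 : s'.1 = e.1.1 := by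
    rw [hs', Prod.fst_add, hx1]; abel
  have h2 : ∀ e' ∈ S.cls e, e'.2 - s' ∈ S.V e := by
    intro e' h'
    have h3 := (S.V e).sub_mem (S.sub_mem_V h') hx
    have h4 : e'.2 - e.2 - x = e'.2 - s' := by rw [hs']; abel
    rwa [h4] at h3
  have h3 : ∀ e' ∈ S.cls e, Bf (s' - e.1) (e'.2 - s') ≠ 0 := by
    intro e' h'
    obtain ⟨ha, hb, hc⟩ := S.mem_cls.1 h'
    have h4 := hste e' ha (not_mem_V_cls S he h' hw) (by rw [V_cls S he h']; exact hd)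
      (by rw [V_cls S he h']; exact hinj) s' (by rw [h1, hb])
      (by
        rw [V_cls S he h', ← neg_sub]
        exact (S.V e).neg_mem (h2 e' h'))
    rwa [hb] at h4
  have h4 : e ∈ S.cls e := S.mem_cls.2 ⟨he, rfl, rfl⟩
  exact H455.cnt_stereo S (H83.v_zero_stereo S he (S.V e) le_rfl hinj s' h1 (h2 e h4) (h3 e h4)) e
    (H395.hcomap S e) (S.V e) hinj hd s' h1 h2 h3 hsep G

/-- the wrong-type data of `GenW` -/
def WData (v : ℕ) (Pr : Ideal (MvPolynomial (ZI n) ℝ)) (s : ZZ n) (U : Submodule ℝ (ZZ n)) : Prop :=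
  ∃ n₀ ∈ U, n₀ ≠ 0 ∧ n₀.1 = 0 ∧ (∀ x ∈ U, x.1 = 0 → ∃ c : ℝ, x = c • n₀) ∧
    (v = 0 → ∃ (D' : ℕ) (G : MvPolynomial (ZI n) ℝ), 0 < D' ∧ G.IsHomogeneous D' ∧
      aeval (fun l => (X l - C (pt s l) : MvPolynomial (ZI n) ℝ)) G ∈ Pr ∧ eval (pt n₀) G ≠ 0)

/-- case N, `v = 0`, right or wrong type: countable or bad -/
theorem cnt_N (S : Side n A W D σ v) {e : ZZ n × ZZ n} (he : e ∈ A) (hv : v = 0)
    (hw : e.1 - e.2 ∈ S.V e) (hg : ZInj (S.V e) ∨ WData v (S.Pr e) e.1 (S.V e))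
    {N : ℕ} (hsep : Sep (fun e' : ZZ n × ZZ n => pt e'.2) N (S.cls e)) (G : ℕ) :
    S.Cnt N G e ∨ Bad (S.Pr e) (pt e.1) := by
  by_cases hb : Bad (S.Pr e) (pt e.1)
  · exact Or.inr hb
  left
  refine H701.good_side S hv e N G hb ?_ (H395.hjet S e) hsep
  rcases hg with h | ⟨n₀, h1, h2, h3, h4, h5⟩
  · exact H82.hmd1_right S he hw h
  · obtain ⟨D', G', g1, g2, g3, g4⟩ := h5 hv
    exact H82.hmd1_wrong S he hw n₀ h1 h2 h3 h4 g1 g2 g3 g4

theorem cnt_mono_N (S : Side n A W D σ v) {N N' G : ℕ} (h : N ≤ N') {e : ZZ n × ZZ n}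
    (hc : S.Cnt N G e) : S.Cnt N' G e := by
  rcases hc with h1 | ⟨hv, a₀, h1⟩
  · exact Or.inl h1
  · refine Or.inr ⟨hv, a₀, fun K => ?_⟩
    obtain ⟨k, hk, h2⟩ := h1 K
    refine ⟨k, hk, h2.trans (Nat.mul_le_mul_left _ ?_)⟩
    exact (H580.isFilt_Vw (wt W) (wt_ne S.hW)).hilbF_mono _
      (Nat.add_le_add_right (Nat.mul_le_mul_left _ (Nat.add_le_add_right h 1)) _)

theorem sub_swap (e : ZZ n × ZZ n) : e.swap.1 - e.swap.2 = -(e.1 - e.2) := by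
  rw [neg_sub]
  rfl

theorem span_swap (e : ZZ n × ZZ n) :
    Submodule.span ℝ ({e.swap.1 - e.swap.2} : Set (ZZ n)) = Submodule.span ℝ {e.1 - e.2} := by
  rw [sub_swap, ← Set.neg_singleton, Submodule.span_neg]

theorem mem_swap_iff (e : ZZ n × ZZ n) (V : Submodule ℝ (ZZ n)) :
    e.swap.1 - e.swap.2 ∈ V ↔ e.1 - e.2 ∈ V := by
  rw [sub_swap, Submodule.neg_mem_iff]

/-- cases (A0) and the right-type part of (A'), one side -/
theorem cnt_A0 (S : Side n A W D σ v) {e : ZZ n × ZZ n} (he : e ∈ A) (hE : EdgeS S e)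
    (hw : e.1 - e.2 ∉ S.V e) (hd : finrank ℝ (S.V e) ≤ n)
    (hI : finrank ℝ (S.V e) < n ∨ ¬ Iso (S.V e ⊔ Submodule.span ℝ {e.1 - e.2}))
    {N : ℕ} (hsep : Sep (fun e' : ZZ n × ZZ n => pt e'.2) N (S.cls e)) (G : ℕ) : S.Cnt N G e := by
  refine cnt_lin S he hw (hE.geniw ?_ ?_) hsep G
  · exact (H192.finrank_sup_span _ hw).le.trans (Nat.succ_le_succ hd)
  · rcases hI with h | h
    · left
      exact (H192.finrank_sup_span _ hw).le.trans_lt (Nat.succ_lt_succ h)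
    · exact Or.inr h

/-- isotropic classes of small dimension are small (686 `IsoB`) -/
def IsoC (S : Side n A W D σ v) (G : ℕ) : Prop :=
  ∀ e ∈ A, Iso (S.V e) → finrank ℝ (S.V e) ≤ 2 * σ → (S.cls e).card ≤ G

/-- case (A'), one side; `hv` is the vertical alternative -/
theorem cnt_A' (S : Side n A W D σ v) {e : ZZ n × ZZ n} (he : e ∈ A) (hE : EdgeS S e)
    (hw : e.1 - e.2 ∉ S.V e) (hd : finrank ℝ (S.V e) = n)
    (hI : Iso (S.V e ⊔ Submodule.span ℝ {e.1 - e.2})) {Q : Prop}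
    (hv : ¬ ZInj (S.V e ⊔ Submodule.span ℝ {e.1 - e.2}) → v ≠ 0 →
      finrank ℝ (S.V e) ≤ 2 * σ ∨ Q)
    {N G : ℕ} (hsep : Sep (fun e' : ZZ n × ZZ n => pt e'.2) N (S.cls e)) (hiso : IsoC S G) :
    S.Cnt N G e ∨ Q := by
  have hd1 : finrank ℝ ↥(S.V e ⊔ Submodule.span ℝ {e.1 - e.2}) = n + 1 := by
    rw [H192.finrank_sup_span _ hw, hd]
  by_cases hz : ZInj (S.V e ⊔ Submodule.span ℝ {e.1 - e.2})
  · exact Or.inl (cnt_lin S he hw hz hsep G)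
  by_cases hv0 : v = 0
  · exact Or.inl (H431.cnt_wrong_off S hv0 he hE hw hI hd1 hz N G hsep)
  · rcases hv hz hv0 with h | h
    · exact Or.inl (Or.inl (hiso e he (hI.mono le_sup_left) h))
    · exact Or.inr h

/-- **the case theorem**: countable from one end or bad x bad -/
theorem hcase {σ₁ σ₂ v₁ v₂ : ℕ} (S₁ : Side n A W D σ₁ v₂) (S₂ : Side n (swp A) W D σ₂ v₁)
    (hE : ∀ e ∈ A, EdgeB S₁ S₂ e) {N G₁ G₂ : ℕ}
    (hsep₁ : ∀ e ∈ A, Sep (fun e' : ZZ n × ZZ n => pt e'.2) N (S₁.cls e))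
    (hsep₂ : ∀ e ∈ swp A, Sep (fun e' : ZZ n × ZZ n => pt e'.2) N (S₂.cls e))
    (hiso₁ : IsoC S₁ G₁) (hiso₂ : IsoC S₂ G₂) :
    ∀ e ∈ A, S₁.Cnt (2 * N) G₁ e ∨ S₂.Cnt (2 * N) G₂ e.swap ∨ BB S₁ S₂ e := by
  intro e he
  have hEe := hE e he
  have he2 : e.swap ∈ swp A := mem_swp.2 (by rwa [Prod.swap_swap])
  have hs1 := hsep₁ e he
  have hs2 := hsep₂ e.swap he2
  have h2N : N ≤ 2 * N := by omega
  have hiso1' : Iso (S₁.V e) → ∀ b ∈ S₁.V e, Bf (e.1 - e.2) b = 0 := fun h => S₁.iso_perp he h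
  have hneg : ∀ b, Bf (e.1 - e.2) b = - Bf (e.swap.1 - e.swap.2) b := by
    intro b
    rw [sub_swap]
    unfold Bf
    rw [← Finset.sum_neg_distrib]
    refine Finset.sum_congr rfl fun i _ => ?_
    simp only [Prod.fst_neg, Prod.snd_neg, Pi.neg_apply]
    ring
  have hiso2' : Iso (S₂.V e.swap) → ∀ b ∈ S₂.V e.swap, Bf (e.1 - e.2) b = 0 := by
    intro h b hb
    rw [hneg, S₂.iso_perp he2 h b hb, neg_zero]
  rcases H192.tree (k := ℝ) two_ne_zero (S₂.V e.swap) (S₁.V e) (e.1 - e.2) hEe.hperp hiso2' hiso1'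
    hEe.hw₁ hEe.hw₂ with ⟨h1, h2, h3⟩ | ⟨h1, h2, h3, h4⟩ | ⟨h1, h2, h3⟩ | ⟨h1, h2, h3, h4⟩ |
    ⟨h1, h2, h3, h4, h5, h6, h7, h8⟩ | ⟨h1, h2, h3, h4⟩
  · -- (A0)
    exact Or.inl (cnt_mono_N S₁ h2N (cnt_A0 S₁ he hEe.side₁ h1 h2 h3 hs1 G₁))
  · -- (A')
    rcases cnt_A' S₁ he hEe.side₁ h1 h2 h3 (hEe.vertA₁ h1 h2 h3) hs1 hiso₁ with h | ⟨h5, h6⟩
    · exact Or.inl (cnt_mono_N S₁ h2N h)
    · refine Or.inr (Or.inl (cnt_mono_N S₂ h2N (cnt_A0 S₂ he2 hEe.side₂ ?_ h6.le (Or.inl h6)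
        hs2 G₂)))
      rwa [mem_swap_iff]
  · -- (B0)
    refine Or.inr (Or.inl (cnt_mono_N S₂ h2N (cnt_A0 S₂ he2 hEe.side₂ ?_ h2 ?_ hs2 G₂)))
    · rwa [mem_swap_iff]
    · rwa [span_swap]
  · -- (B')
    have h1' : e.swap.1 - e.swap.2 ∉ S₂.V e.swap := by rwa [mem_swap_iff]
    have h3' : Iso (S₂.V e.swap ⊔ Submodule.span ℝ {e.swap.1 - e.swap.2}) := by rwa [span_swap]
    rcases cnt_A' S₂ he2 hEe.side₂ h1' h2 h3' (by
      rw [span_swap]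
      exact hEe.vertA₂ h1 h2 h3) hs2 hiso₂ with h | ⟨h5, h6⟩
    · exact Or.inr (Or.inl (cnt_mono_N S₂ h2N h))
    · exact Or.inl (cnt_mono_N S₁ h2N (cnt_A0 S₁ he hEe.side₁ h5 h6.le (Or.inl h6) hs1 G₁))
  · -- (C)
    have hz : ZInj (S₁.V e) := hEe.side₁.geni (le_of_eq h4) (Or.inr h8)
    exact Or.inl (cnt_ste S₁ he h2 h4 hz (fun e he => (hE e he).ste) hs1 G₁)
  · -- (N)
    rw [h2] at h1 h3 h4
    rcases hEe.vertN h1 h2.symm h3 with ⟨hv1, hv2⟩ | h5 | h5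
    · have hg : ∀ {A' : Finset (ZZ n × ZZ n)} {σ' v' : ℕ} (S : Side n A' W D σ' v')
          (e' : ZZ n × ZZ n), EdgeS S e' → Iso (S.V e') → finrank ℝ (S.V e') ≤ n + 1 →
          ZInj (S.V e') ∨ WData v' (S.Pr e') e'.1 (S.V e') := by
        intro A' σ' v' S e' hS hI hd
        rcases Nat.lt_or_ge (finrank ℝ (S.V e')) (n + 1) with hlt | hge
        · exact Or.inl (hS.geni hd (Or.inl hlt))
        · exact hS.genw hI (le_antisymm hd hge)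
      rcases cnt_N S₁ he hv2 h1 (hg S₁ e hEe.side₁ h3 h4) hs1 G₁ with h6 | h6
      · exact Or.inl (cnt_mono_N S₁ h2N h6)
      · have h1' : e.swap.1 - e.swap.2 ∈ S₂.V e.swap := by rw [mem_swap_iff, h2]; exact h1
        rcases cnt_N S₂ he2 hv1 h1' (hg S₂ e.swap hEe.side₂ (by rw [h2]; exact h3)
          (by rw [h2]; exact h4)) hs2 G₂ with h7 | h7
        · exact Or.inr (Or.inl (cnt_mono_N S₂ h2N h7))
        · exact Or.inr (Or.inr ⟨hv1, hv2, h6, h7⟩)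
    · exact Or.inl (Or.inl (hiso₁ e he h3 h5))
    · refine Or.inr (Or.inl (Or.inl (hiso₂ e.swap he2 (by rw [h2]; exact h3) ?_)))
      rw [h2]
      exact h5

end Vale.Agent.P054.T2.H163
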