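import Vale.Agent.P054.T2.H163.Cases
import Vale.Agent.P054.T2.H686.Frame

set_option autoImplicit false
set_option linter.all false

/-!
# P054 / T2, section C: the case theorem for the point set
-/

namespace Vale.Agent.P054.T2.H163

open MvPolynomial Finset Module
open SecC
open H686 (mu Qf Bf zt dists E IsoB)
open H192 (Iso)
open H455 (Sep)

variable {n : ℕ} {A : Finset (ZZ n × ZZ n)} {W D σ v : ℕ}

/-- `IsoC` from the bound of 686 for isotropic classes -/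
theorem isoC_of_isoB (S : Side n A W D σ v) {P : Finset (E n)} {G : ℕ → ℕ} (hG : IsoB n P G)
    (B : E n ≃ₗᵢ[ℝ] E n) (hA : ∀ e ∈ A, ∃ r ∈ P ×ˢ P, e.2 = zt B r) : IsoC S (G σ) := by
  classical
  intro e he hI hd
  set cl : Finset (E n × E n) := (P ×ˢ P).filter fun r => (e.1, zt B r) ∈ S.cls e with hcl
  have h1 : S.cls e ⊆ cl.image fun r => (e.1, zt B r) := by
    intro e' he'
    have h2 := S.mem_cls.1 he'
    obtain ⟨r, hr, hre⟩ := hA e' h2.1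
    have h3 : e' = (e.1, zt B r) := Prod.ext h2.2.1 hre
    refine Finset.mem_image.2 ⟨r, ?_, h3.symm⟩
    rw [hcl, Finset.mem_filter]
    exact ⟨hr, h3 ▸ he'⟩
  refine ((Finset.card_le_card h1).trans Finset.card_image_le).trans ?_
  refine hG σ S.hσ1 B (S.V e) e.2 hI hd cl (Finset.filter_subset _ _) fun r hr => ?_
  rw [hcl, Finset.mem_filter] at hr
  exact S.sub_mem_V hr.2

/-- separation of the classes in degree `4 t` -/
theorem sep_cls (S : Side n A W D σ v) {P : Finset (E n)} {t : ℕ} (ht : (dists P).card ≤ t)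
    (B : E n ≃ₗᵢ[ℝ] E n) (hA : ∀ e ∈ A, ∃ r ∈ P ×ˢ P, e.2 = zt B r) (e : ZZ n × ZZ n) :
    Sep (fun e' : ZZ n × ZZ n => pt e'.2) (4 * t) (S.cls e) :=
  (H455.sep_pt P B (S.cls e) e.1 (fun e' h => (S.mem_cls.1 h).2.1)
    (fun e' h => hA e' (S.mem_cls.1 h).1)).mono_deg (Nat.mul_le_mul_left _ ht)

/-- **the case theorem for the point set**, `N = 8 t`, `G₁ = G σ₁`, `G₂ = G σ₂` -/
theorem hcase_P {σ₁ σ₂ v₁ v₂ : ℕ} (S₁ : Side n A W D σ₁ v₂) (S₂ : Side n (swp A) W D σ₂ v₁)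
    (hE : ∀ e ∈ A, EdgeB S₁ S₂ e)
    {P : Finset (E n)} {t : ℕ} {G : ℕ → ℕ} (ht : (dists P).card ≤ t) (hG : IsoB n P G)
    (B : E n ≃ₗᵢ[ℝ] E n) (hA1 : ∀ e ∈ A, ∃ s ∈ P ×ˢ P, e.1 = zt B s)
    (hA2 : ∀ e ∈ A, ∃ r ∈ P ×ˢ P, e.2 = zt B r) :
    ∀ e ∈ A, S₁.Cnt (8 * t) (G σ₁) e ∨ S₂.Cnt (8 * t) (G σ₂) e.swap ∨ BB S₁ S₂ e := by
  have hA1' : ∀ e ∈ swp A, ∃ r ∈ P ×ˢ P, e.2 = zt B r := by
    intro e he
    exact hA1 e.swap (mem_swp.1 he)
  intro e he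
  have h := hcase S₁ S₂ hE (N := 4 * t) (fun e _ => sep_cls S₁ ht B hA2 e)
    (fun e _ => sep_cls S₂ ht B hA1' e) (isoC_of_isoB S₁ hG B hA2) (isoC_of_isoB S₂ hG B hA1')
    e he
  have h8 : 2 * (4 * t) = 8 * t := by ring
  rwa [h8] at h

end Vale.Agent.P054.T2.H163
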