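import Vale.Agent.P054.T2.H163.Hilb

/-! P054 / T2: a germ ideal is contained in every prime through its base point which contains the
equations (Krull intersection), hence germ primes of the same system which share a base point
agree. -/

namespace Vale.Agent.P054.T2.H163

open MvPolynomial H441

variable {K : Type*} [Field K] {σ : Type*} [Finite σ]

/-- the `n`-th jet ideal of the system `f` at the point `p` -/
noncomputable def Jn {ι : Type*} (f : ι → MvPolynomial σ K) (p : σ → K) (n : ℕ) :
    Ideal (MvPolynomial σ K) := Ideal.span (Set.range f) ⊔ m p ^ n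

/-- the germ ideal -/
noncomputable def germ {ι : Type*} (f : ι → MvPolynomial σ K) (p : σ → K) :
    Ideal (MvPolynomial σ K) := ⨅ n, Jn f p n

omit [Finite σ] in
theorem m_ne_top (p : σ → K) : m p ≠ ⊤ := by
  intro h
  have : (1 : MvPolynomial σ K) ∈ m p := by rw [h]; trivial
  rw [mem_m] at this
  simp at this

omit [Finite σ] in
theorem germ_le_Jn {ι : Type*} (f : ι → MvPolynomial σ K) (p : σ → K) (n : ℕ) :
    germ f p ≤ Jn f p n := iInf_le _ n

omit [Finite σ] in
theorem mem_germ {ι : Type*} (f : ι → MvPolynomial σ K) (p : σ → K) (i : ι) :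
    f i ∈ germ f p := by
  rw [germ, Ideal.mem_iInf]
  intro n
  exact Ideal.mem_sup_left (Ideal.subset_span ⟨i, rfl⟩)

omit [Finite σ] in
theorem germ_le_m {ι : Type*} {f : ι → MvPolynomial σ K} {p : σ → K}
    (hf : ∀ i, eval p (f i) = 0) : germ f p ≤ m p := by
  refine (germ_le_Jn f p 1).trans ?_
  rw [Jn, pow_one]
  refine sup_le ?_ le_rfl
  rw [Ideal.span_le]
  rintro _ ⟨i, rfl⟩
  exact mem_m.2 (hf i)

/-- **(COMP)** -/
theorem germ_le_of_prime {ι : Type*} (f : ι → MvPolynomial σ K) (p : σ → K)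
    {P : Ideal (MvPolynomial σ K)} (hP : P.IsPrime) (hf : ∀ i, f i ∈ P) (hPm : P ≤ m p) :
    germ f p ≤ P := by
  intro G hG
  have hdom : IsDomain (MvPolynomial σ K ⧸ P) := (Ideal.Quotient.isDomain_iff_prime P).2 hP
  set M : Ideal (MvPolynomial σ K ⧸ P) := (m p).map (Ideal.Quotient.mk P) with hM
  have hMtop : M ≠ ⊤ := by
    intro h
    have h1 : (m p).map (Ideal.Quotient.mk P) = ⊤ := h
    have h2 := Ideal.comap_map_of_surjective _ (Ideal.Quotient.mk_surjective (I := P)) (m p)
    rw [h1, Ideal.comap_top] at h2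
    have h3 : Ideal.comap (Ideal.Quotient.mk P) ⊥ = P := by
      rw [← RingHom.ker_eq_comap_bot, Ideal.mk_ker]
    rw [h3, sup_eq_left.2 hPm] at h2
    exact m_ne_top p h2.symm
  have hbot := Ideal.iInf_pow_eq_bot_of_isDomain M hMtop
  have h1 : Ideal.Quotient.mk P G ∈ ⨅ i : ℕ, M ^ i := by
    rw [Ideal.mem_iInf]
    intro n
    have h2 : G ∈ Jn f p n := germ_le_Jn f p n hG
    have h3 : Ideal.Quotient.mk P G ∈ (Jn f p n).map (Ideal.Quotient.mk P) :=
      Ideal.mem_map_of_mem _ h2
    rw [Jn, Ideal.map_sup, Ideal.map_pow] at h3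
    have h4 : (Ideal.span (Set.range f)).map (Ideal.Quotient.mk P) = ⊥ := by
      rw [Ideal.map_span, Ideal.span_eq_bot]
      rintro _ ⟨_, ⟨i, rfl⟩, rfl⟩
      exact Ideal.Quotient.eq_zero_iff_mem.2 (hf i)
    rw [h4, bot_sup_eq] at h3
    exact h3
  rw [hbot, Submodule.mem_bot, Ideal.Quotient.eq_zero_iff_mem] at h1
  exact h1

/-- germ primes of one system of equations: if the base point of the second germ lies on the first
one then they agree -/
theorem germ_eq {ι : Type*} (f : ι → MvPolynomial σ K) {p p' : σ → K} {e C : ℕ}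
    (hprime : (germ f p).IsPrime) (hprime' : (germ f p').IsPrime)
    (hup : ∀ n, hF (germ f p') n ≤ C * (n + 1) ^ e)
    (hlo : ∀ n, (n + e).choose e ≤ hF (germ f p) n)
    (hp' : germ f p ≤ m p') : germ f p' = germ f p := by
  have h1 : germ f p' ≤ germ f p := germ_le_of_prime f p' hprime (mem_germ f p) hp'
  by_contra hne
  exact not_lt hprime' hup hlo (lt_of_le_of_ne h1 hne)

end Vale.Agent.P054.T2.H163
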