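import Vale.Agent.P054.T2.H163.FinalCount
import Vale.Agent.P054.T2.H930.Jets

/-! P054 / T2: the two corollaries of the abstract final count. -/

namespace Vale.Agent.P054.T2.H163

open MvPolynomial H441

variable {K : Type*} [Field K] {τ : Type*} [Finite τ]

/-- the class bound from separation: the points `x i` of a class are separated by polynomials of
degree at most `N` and have the prime `Pr` with jets of dimension `s` -/
theorem class_bound {ι ρ : Type*} [Finite ρ] (A : Finset ι) (x : ι → ρ → K)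
    (Pr : Ideal (MvPolynomial ρ K)) (J : (ρ → K) → ℕ → Ideal (MvPolynomial ρ K)) {N s k : ℕ}
    [DecidableEq (ρ → K)]
    (hJ : ∀ i ∈ A, m (x i) ^ (k + 1) ≤ J (x i) (k + 1)) (hPJ : ∀ i ∈ A, Pr ≤ J (x i) (k + 1))
    (hdim : ∀ i ∈ A, (k + s).choose s ≤
      Module.finrank K (MvPolynomial ρ K ⧸ J (x i) (k + 1)))
    (hsep : A.card ≤ rkY (A.image x) N) :
    A.card * (k + s).choose s ≤ hF Pr ((k + 1) * N + k) := by
  refine (Nat.mul_le_mul_right _ hsep).trans ?_
  refine lo Pr (A.image x) (fun p => J p (k + 1)) ?_ ?_ ?_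
  · intro p hp
    obtain ⟨i, hi, rfl⟩ := Finset.mem_image.1 hp
    exact hJ i hi
  · intro p hp
    obtain ⟨i, hi, rfl⟩ := Finset.mem_image.1 hp
    exact hPJ i hi
  · intro p hp
    obtain ⟨i, hi, rfl⟩ := Finset.mem_image.1 hp
    exact hdim i hi

/-- **count, separated leaf points** (linear section and stereographic cases) -/
theorem count_sep {ι κ : Type*} [DecidableEq κ] [DecidableEq (τ → K)] (A : Finset ι) (cl : ι → κ)
    (u : ι → τ → K) (P : κ → Ideal (MvPolynomial τ K))
    (J : (τ → K) → ℕ → Ideal (MvPolynomial τ K)) {D₂ D N s : ℕ}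
    (hprime : ∀ i ∈ A, (P (cl i)).IsPrime)
    (hJ : ∀ i ∈ A, ∀ k, m (u i) ^ (k + 1) ≤ J (u i) (k + 1))
    (hPJ : ∀ i ∈ A, ∀ k, P (cl i) ≤ J (u i) (k + 1))
    (hdim : ∀ i ∈ A, ∀ k, (k + s).choose s ≤
      Module.finrank K (MvPolynomial τ K ⧸ J (u i) (k + 1)))
    (hmult : ∀ i ∈ A, ∀ S ⊆ A.image cl, (∀ c ∈ S, P c = P (cl i)) → S.card ≤ D₂)
    (hU : ∀ n, hF (⨅ i ∈ A, P (cl i)) n ≤ D * (n + 1) ^ s)
    (hsep : ∀ c ∈ A.image cl, (A.filter fun i => cl i = c).card ≤
      rkY ((A.filter fun i => cl i = c).image u) N) :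
    A.card ≤ s.factorial * (D₂ * D) * (N + 1) ^ s := by
  have hlow : ∀ i ∈ A, ∀ n, (n + s).choose s ≤ hF (P (cl i)) n := by
    intro i hi n
    have h1 := class_bound (K := K) {i} u (P (cl i)) J (N := 0) (s := s) (k := n)
      (fun j hj => by rw [Finset.mem_singleton.1 hj]; exact hJ i hi n)
      (fun j hj => by rw [Finset.mem_singleton.1 hj]; exact hPJ i hi n)
      (fun j hj => by rw [Finset.mem_singleton.1 hj]; exact hdim i hi n)
      (by
        rw [Finset.card_singleton, Finset.image_singleton, Nat.one_le_iff_ne_zero]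
        intro h0
        have hfin : Module.Finite K
            ((restrictTotalDegree τ K 0).map (resA {u i}).toLinearMap) := inferInstance
        have h2 := Submodule.finrank_eq_zero.1 h0
        have h3 : (resA {u i}).toLinearMap (1 : MvPolynomial τ K) ∈
            (restrictTotalDegree τ K 0).map (resA {u i}).toLinearMap :=
          ⟨1, by rw [SetLike.mem_coe, mem_restrictTotalDegree]; simp, rfl⟩
        rw [h2, Submodule.mem_bot] at h3
        have h4 : resA {u i} (1 : MvPolynomial τ K) = 0 := h3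
        rw [map_one] at h4
        have h5 := congrFun h4 ⟨u i, Finset.mem_singleton_self _⟩
        simp at h5)
    simpa using h1
  have h1 := final_count A cl P (D₀ := 0) (D₁ := 1) (D₂ := D₂) (D := D) (N := N) (s := s)
    (a₀ := 0) (k₀ := 0) hprime hlow hmult hU (by
      intro c hc k _
      have h2 := class_bound (A.filter fun i => cl i = c) u (P c) J (N := N) (s := s) (k := k)
        (fun i hi => hJ i (Finset.mem_filter.1 hi).1 k)
        (fun i hi => by
          have h3 := hPJ i (Finset.mem_filter.1 hi).1 k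
          rw [(Finset.mem_filter.1 hi).2] at h3
          exact h3)
        (fun i hi => hdim i (Finset.mem_filter.1 hi).1 k) (hsep c hc)
      refine h2.trans ?_
      rw [zero_mul, zero_add, one_mul]
      refine hF_mono_deg _ ?_
      have : (k + 1) * (N + 1) = (k + 1) * N + (k + 1) := by ring
      omega)
  simpa using h1

/-- **count, isotropic case**: the points `r i` are separated by polynomials of degree at most `N`
and the Hilbert function of their prime is controlled by the one of the leaf prime -/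
theorem count_cone {ι κ ρ : Type*} [Finite ρ] [DecidableEq κ] [DecidableEq (ρ → K)]
    (A : Finset ι) (cl : ι → κ) (P : κ → Ideal (MvPolynomial τ K))
    (r : ι → ρ → K) (Pr : κ → Ideal (MvPolynomial ρ K))
    (J : (ρ → K) → ℕ → Ideal (MvPolynomial ρ K)) {D₁ D₂ D N s : ℕ}
    (hprime : ∀ i ∈ A, (P (cl i)).IsPrime)
    (hlow : ∀ i ∈ A, ∀ n, (n + s).choose s ≤ hF (P (cl i)) n)
    (hJ : ∀ i ∈ A, ∀ k, m (r i) ^ (k + 1) ≤ J (r i) (k + 1))
    (hPJ : ∀ i ∈ A, ∀ k, Pr (cl i) ≤ J (r i) (k + 1))
    (hdim : ∀ i ∈ A, ∀ k, (k + s).choose s ≤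
      Module.finrank K (MvPolynomial ρ K ⧸ J (r i) (k + 1)))
    (hmult : ∀ i ∈ A, ∀ S ⊆ A.image cl, (∀ c ∈ S, P c = P (cl i)) → S.card ≤ D₂)
    (hU : ∀ n, hF (⨅ i ∈ A, P (cl i)) n ≤ D * (n + 1) ^ s)
    (hsep : ∀ c ∈ A.image cl, (A.filter fun i => cl i = c).card ≤
      rkY ((A.filter fun i => cl i = c).image r) N)
    (hW : ∀ c ∈ A.image cl, ∃ C T₀, ∀ T, T₀ ≤ T →
      hF (Pr c) T ≤ (T + 1) ^ s + D₁ * hF (P c) (T + C)) :
    A.card ≤ s.factorial * (D₂ * (s.factorial * D + D₁ * D)) * (N + 1) ^ s := by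
  classical
  choose! C T₀ hCT using hW
  have h1 := final_count A cl P (D₀ := 1) (D₁ := D₁) (D₂ := D₂) (D := D) (N := N) (s := s)
    (a₀ := ∑ c ∈ A.image cl, C c) (k₀ := ∑ c ∈ A.image cl, T₀ c) hprime hlow hmult hU (by
      intro c hc k hk
      have h2 := class_bound (A.filter fun i => cl i = c) r (Pr c) J (N := N) (s := s) (k := k)
        (fun i hi => hJ i (Finset.mem_filter.1 hi).1 k)
        (fun i hi => by
          have h3 := hPJ i (Finset.mem_filter.1 hi).1 k
          rw [(Finset.mem_filter.1 hi).2] at h3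
          exact h3)
        (fun i hi => hdim i (Finset.mem_filter.1 hi).1 k) (hsep c hc)
      have hC : C c ≤ ∑ c ∈ A.image cl, C c :=
        Finset.single_le_sum (f := C) (fun _ _ => Nat.zero_le _) hc
      have hT : T₀ c ≤ ∑ c ∈ A.image cl, T₀ c :=
        Finset.single_le_sum (f := T₀) (fun _ _ => Nat.zero_le _) hc
      have h4 : (k + 1) * (N + 1) = (k + 1) * N + k + 1 := by ring
      have h3 := hCT c hc ((k + 1) * N + k) (by
        have : k ≤ (k + 1) * N + k := Nat.le_add_left _ _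
        omega)
      refine (h2.trans h3).trans ?_
      have h5 : ((k + 1) * N + k + 1) ^ s ≤
          ((k + 1) * (N + 1) + ∑ c ∈ A.image cl, C c) ^ s :=
        Nat.pow_le_pow_left (by omega) _
      have h6 : hF (P c) ((k + 1) * N + k + C c) ≤
          hF (P c) ((k + 1) * (N + 1) + ∑ c ∈ A.image cl, C c) :=
        hF_mono_deg _ (by omega)
      rw [one_mul]
      exact Nat.add_le_add h5 (Nat.mul_le_mul_left _ h6))
  rw [one_mul] at h1
  exact h1

end Vale.Agent.P054.T2.H163
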