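import Vale.Agent.P054.T2.H163.Reg

/-! P054 / T2: the degree of a Hilbert function, and the degree of a prime ideal. -/

namespace Vale.Agent.P054.T2.H163

open MvPolynomial H441 Filter
open Vale.Agent.P054.T2.H431 (Sx mem_Sx one_mem_Sx mul_mem_Sx self_mem_Sx finite_Sx
  aeval_mem_of_graded)

/-- `h` has dimension `s` and degree `δ` -/
def IsDeg (h : ℕ → ℕ) (s δ : ℕ) : Prop :=
  ∃ c, ∀ T, δ * (T + s).choose s ≤ h (T + c) ∧ h T ≤ δ * (T + c + s).choose s

theorem le_fact_choose (T s : ℕ) : (T + 1) ^ s ≤ s.factorial * (T + s).choose s := by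
  rw [← Nat.ascFactorial_eq_factorial_mul_choose]
  exact Nat.pow_succ_le_ascFactorial _ _

theorem fact_choose_le (T s : ℕ) : s.factorial * (T + s).choose s ≤ (T + s) ^ s := by
  rw [← Nat.descFactorial_eq_factorial_mul_choose]
  exact Nat.descFactorial_le_pow _ _

/-- comparison of leading coefficients along infinitely many `T` -/
theorem le_of_freq {a b c s : ℕ}
    (h : ∃ᶠ T in atTop, a * (T + 1) ^ s ≤ b * (T + c) ^ s) : a ≤ b := by
  by_contra hlt
  push Not at hlt
  have h2 : Tendsto (fun T : ℕ => (b : ℝ) * (1 + (c : ℝ) / (T + 1)) ^ s)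
      atTop (nhds ((b : ℝ) * (1 + 0) ^ s)) := by
    refine Tendsto.const_mul _ (Tendsto.pow ?_ _)
    refine Tendsto.const_add _ ?_
    have := (tendsto_one_div_add_atTop_nhds_zero_nat (𝕜 := ℝ)).const_mul (c : ℝ)
    rw [mul_zero] at this
    refine this.congr fun k => ?_
    rw [mul_one_div]
  have h3 : ∀ᶠ T : ℕ in atTop, (b : ℝ) * (1 + (c : ℝ) / (T + 1)) ^ s < a := by
    refine h2.eventually_lt_const ?_
    rw [add_zero, one_pow, mul_one]
    exact_mod_cast hlt
  obtain ⟨T, hT1, hT2⟩ := (h.and_eventually h3).exists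
  have h4 : (a : ℝ) * (T + 1 : ℝ) ^ s ≤ b * (T + c : ℝ) ^ s := by exact_mod_cast hT1
  have h5 : (T + c : ℝ) ^ s ≤ ((T + 1 : ℝ) * (1 + (c : ℝ) / (T + 1))) ^ s := by
    have h6 : (T + 1 : ℝ) * (1 + (c : ℝ) / (T + 1)) = T + 1 + c := by field_simp
    rw [h6]
    exact pow_le_pow_left₀ (by positivity) (by linarith) _
  have h7 : (0 : ℝ) < (T + 1 : ℝ) ^ s := by positivity
  have h8 : (a : ℝ) ≤ b * (1 + (c : ℝ) / (T + 1)) ^ s := by
    refine le_of_mul_le_mul_right ?_ h7
    calc (a : ℝ) * (T + 1 : ℝ) ^ s ≤ b * (T + c : ℝ) ^ s := h4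
      _ ≤ b * ((T + 1 : ℝ) * (1 + (c : ℝ) / (T + 1))) ^ s := by gcongr
      _ = _ := by rw [mul_pow]; ring
  linarith

/-- comparison of degrees: `h₁ T ≤ D * h₂ (T + C)` for infinitely many `T` -/
theorem IsDeg.le_of_freq {h₁ h₂ : ℕ → ℕ} {s δ₁ δ₂ D C : ℕ} (h1 : IsDeg h₁ s δ₁)
    (h2 : IsDeg h₂ s δ₂) (h : ∃ᶠ T in atTop, h₁ T ≤ D * h₂ (T + C)) : δ₁ ≤ D * δ₂ := by
  obtain ⟨c₁, hc₁⟩ := h1
  obtain ⟨c₂, hc₂⟩ := h2
  refine H163.le_of_freq (c := c₁ + C + c₂ + s) (s := s) ?_
  have h3 : ∃ᶠ T in atTop, h₁ (T + c₁) ≤ D * h₂ (T + c₁ + C) := by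
    rw [frequently_atTop] at h ⊢
    intro a
    obtain ⟨b, hb, hbb⟩ := h (a + c₁)
    refine ⟨b - c₁, by omega, ?_⟩
    have : b - c₁ + c₁ = b := by omega
    rwa [this]
  refine h3.mono fun T hT => ?_
  have h4 := (hc₁ T).1
  have h5 := (hc₂ (T + c₁ + C)).2
  calc δ₁ * (T + 1) ^ s ≤ δ₁ * (s.factorial * (T + s).choose s) :=
        Nat.mul_le_mul_left _ (le_fact_choose T s)
    _ = s.factorial * (δ₁ * (T + s).choose s) := by ring
    _ ≤ s.factorial * (D * (δ₂ * (T + c₁ + C + c₂ + s).choose s)) :=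
        Nat.mul_le_mul_left _ ((h4.trans hT).trans (Nat.mul_le_mul_left _ h5))
    _ = D * δ₂ * (s.factorial * (T + c₁ + C + c₂ + s).choose s) := by ring
    _ ≤ D * δ₂ * (T + c₁ + C + c₂ + s) ^ s := Nat.mul_le_mul_left _ (fact_choose_le _ _)
    _ = _ := by ring_nf

theorem IsDeg.unique {h : ℕ → ℕ} {s δ₁ δ₂ : ℕ} (h1 : IsDeg h s δ₁) (h2 : IsDeg h s δ₂) :
    δ₁ = δ₂ := by
  refine le_antisymm ?_ ?_
  · simpa using h1.le_of_freq h2 (D := 1) (C := 0) (Frequently.of_forall fun T => by simp)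
  · simpa using h2.le_of_freq h1 (D := 1) (C := 0) (Frequently.of_forall fun T => by simp)

/-- upper bound for the degree from a polynomial bound along infinitely many `T` -/
theorem IsDeg.le_of_bound {h : ℕ → ℕ} {s δ D C : ℕ} (h1 : IsDeg h s δ)
    (hb : ∃ᶠ T in atTop, h T ≤ D * (T + C) ^ s) : δ ≤ s.factorial * D := by
  obtain ⟨c₁, hc₁⟩ := h1
  refine H163.le_of_freq (c := c₁ + C) (s := s) ?_
  have h3 : ∃ᶠ T in atTop, h (T + c₁) ≤ D * (T + c₁ + C) ^ s := by
    rw [frequently_atTop] at hb ⊢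
    intro a
    obtain ⟨b, hb, hbb⟩ := hb (a + c₁)
    refine ⟨b - c₁, by omega, ?_⟩
    have : b - c₁ + c₁ = b := by omega
    rwa [this]
  refine h3.mono fun T hT => ?_
  calc δ * (T + 1) ^ s ≤ δ * (s.factorial * (T + s).choose s) :=
        Nat.mul_le_mul_left _ (le_fact_choose T s)
    _ = s.factorial * (δ * (T + s).choose s) := by ring
    _ ≤ s.factorial * (D * (T + c₁ + C) ^ s) :=
        Nat.mul_le_mul_left _ ((hc₁ T).1.trans hT)
    _ = _ := by ring_nf

/-- the exponents of comparable functions -/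
theorem exp_le_of_bound {a b A B c : ℕ} (hA : 1 ≤ A)
    (h : ∀ T : ℕ, A * (T + 1) ^ a ≤ B * (T + c + 1) ^ b) : a ≤ b := by
  by_contra hlt
  push Not at hlt
  have h1 := h (B * (c + 1) ^ b)
  set N := B * (c + 1) ^ b with hN
  have h2 : (N + c + 1) ^ b ≤ ((c + 1) * (N + 1)) ^ b := by
    refine Nat.pow_le_pow_left ?_ _
    have : (c + 1) * (N + 1) = c * N + c + N + 1 := by ring
    rw [this]
    have : 0 ≤ c * N := Nat.zero_le _
    omega
  have h3 : (N + 1) ^ (b + 1) ≤ (N + 1) ^ a := Nat.pow_le_pow_right (by omega) hlt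
  have h4 : (N + 1) ^ (b + 1) ≤ N * (N + 1) ^ b := by
    calc (N + 1) ^ (b + 1) ≤ (N + 1) ^ a := h3
      _ ≤ A * (N + 1) ^ a := Nat.le_mul_of_pos_left _ hA
      _ ≤ B * (N + c + 1) ^ b := h1
      _ ≤ B * ((c + 1) * (N + 1)) ^ b := Nat.mul_le_mul_left _ h2
      _ = B * (c + 1) ^ b * (N + 1) ^ b := by rw [mul_pow]; ring
      _ = _ := by rw [← hN]
  have h5 : 0 < (N + 1) ^ b := by positivity
  rw [pow_succ, mul_comm] at h4
  have := Nat.le_of_mul_le_mul_right h4 h5
  omega

variable {K : Type*} [Field K] {σ : Type*}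

theorem map_V_eq_Sx (P : Ideal (MvPolynomial σ K)) (T : ℕ) :
    (restrictTotalDegree σ K T).map (Ideal.Quotient.mkₐ K P).toLinearMap =
      Sx K (fun o : Option σ => o.elim 1 fun j => Ideal.Quotient.mk P (X j)) T := by
  classical
  set x : Option σ → MvPolynomial σ K ⧸ P := fun o => o.elim 1 fun j => Ideal.Quotient.mk P (X j)
    with hx
  refine le_antisymm ?_ ?_
  · rintro _ ⟨F, hF, rfl⟩
    have hF' : F.totalDegree ≤ T := (mem_restrictTotalDegree _ _ _).1 hF
    change Ideal.Quotient.mkₐ K P F ∈ _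
    rw [F.as_sum, map_sum]
    refine Submodule.sum_mem _ fun d hd => ?_
    have hdT : d.degree ≤ T := by
      have := le_totalDegree hd
      exact (this.trans hF')
    have h1 : monomial d (coeff d F) = C (coeff d F) * ∏ i ∈ d.support, X i ^ d i := by
      rw [monomial_eq]; rfl
    rw [h1, map_mul, map_prod]
    have h2 : (Ideal.Quotient.mkₐ K P) (C (coeff d F)) = algebraMap K _ (coeff d F) := by
      rw [← algebraMap_eq, AlgHom.commutes]
    rw [h2, ← Algebra.smul_def]
    refine Submodule.smul_mem _ _ ?_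
    have hpow : ∀ (o : Option σ) (a : ℕ), x o ^ a ∈ Sx K x a := by
      intro o a
      induction a with
      | zero => simpa using one_mem_Sx (k := K) x
      | succ a ih =>
        rw [pow_succ]
        exact mul_mem_Sx x _ _ _ _ ih (self_mem_Sx x o)
    have hprod : ∀ s : Finset σ, ∏ i ∈ s, (Ideal.Quotient.mkₐ K P) (X i ^ d i) ∈
        Sx K x (∑ i ∈ s, d i) := by
      intro s
      induction s using Finset.induction_on with
      | empty => simpa using one_mem_Sx (k := K) x
      | insert a s ha ih =>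
        rw [Finset.prod_insert ha, Finset.sum_insert ha]
        refine mul_mem_Sx x _ _ _ _ ?_ ih
        rw [map_pow]
        exact hpow (some a) (d a)
    have h3 := mul_mem_Sx x _ _ _ _ (hpow none (T - d.degree)) (hprod d.support)
    have h4 : x none = 1 := rfl
    have h5 : T - d.degree + ∑ i ∈ d.support, d i = T := by
      have : ∑ i ∈ d.support, d i = d.degree := rfl
      omega
    rw [h4, one_pow, one_mul, h5] at h3
    exact h3
  · intro u hu
    obtain ⟨F, hF, rfl⟩ := mem_Sx.1 hu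
    have h1 : aeval x F = Ideal.Quotient.mkₐ K P
        (aeval (fun o : Option σ => o.elim (1 : MvPolynomial σ K) X) F) := by
      have h2 : (aeval x : MvPolynomial (Option σ) K →ₐ[K] _) =
          (Ideal.Quotient.mkₐ K P).comp
            (aeval (fun o : Option σ => o.elim (1 : MvPolynomial σ K) X)) := by
        refine MvPolynomial.algHom_ext fun o => ?_
        cases o with
        | none => simp [hx]
        | some j => simp [hx]
      rw [h2]
      rfl
    rw [h1]
    refine ⟨_, ?_, rfl⟩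
    exact aeval_mem_of_graded (fun n => restrictTotalDegree σ K n)
      (by rw [mem_restrictTotalDegree]; simp) (fun a b u v hu hv => V_mul hu hv)
      _ (fun o => by
        cases o with
        | none => rw [mem_restrictTotalDegree]; simp
        | some j => rw [mem_restrictTotalDegree]; simp [totalDegree_X]) hF

/-- reindexing -/
theorem Sx_comp_equiv {R : Type*} [CommRing R] [Algebra K R] {ι ι' : Type*} (e : ι' ≃ ι)
    (x : ι → R) (T : ℕ) : Sx K (x ∘ e) T = Sx K x T := by
  refine le_antisymm (Sx_le_Sx x _ (fun j => self_mem_Sx x (e j)) T)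
    (Sx_le_Sx (x ∘ e) x (fun j => ?_) T)
  have := self_mem_Sx (k := K) (x ∘ e) (e.symm j)
  simpa using this

/-- **degree of a graded Hilbert function in a domain**, any finite index type -/
theorem reg_fintype {R : Type*} [CommRing R] [Algebra K R] [IsDomain R] [Infinite K] {ι : Type*}
    [Finite ι] (x : ι → R) (hx : x ≠ 0) :
    ∃ e δ : ℕ, 1 ≤ δ ∧ IsDeg (fun T => Module.finrank K (Sx K x T)) e δ := by
  have := Fintype.ofFinite ι
  let eq := (Fintype.equivFin ι).symm
  obtain ⟨e, δ, c, hδ, h⟩ := reg (k := K) (x ∘ eq) (by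
    intro h0
    apply hx
    funext j
    have := congrFun h0 (eq.symm j)
    simpa using this)
  refine ⟨e, δ, hδ, c, fun T => ?_⟩
  have h1 := h T
  rw [Sx_comp_equiv, Sx_comp_equiv] at h1
  exact h1

variable [Finite σ]

/-- **[REG] for primes** -/
theorem exists_deg [Infinite K] (P : Ideal (MvPolynomial σ K)) (hP : P.IsPrime) {s C : ℕ}
    (hup : ∀ n, hF P n ≤ C * (n + 1) ^ s) (hlow : ∀ n, (n + s).choose s ≤ hF P n) :
    ∃ δ, 1 ≤ δ ∧ IsDeg (hF P) s δ := by
  have hdom : IsDomain (MvPolynomial σ K ⧸ P) := (Ideal.Quotient.isDomain_iff_prime P).2 hP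
  obtain ⟨e, δ, hδ, c, h⟩ := reg_fintype (K := K)
    (fun o : Option σ => o.elim (1 : MvPolynomial σ K ⧸ P) fun j => Ideal.Quotient.mk P (X j))
    (by
      intro h0
      have := congrFun h0 none
      exact one_ne_zero this)
  have h' : ∀ T, δ * (T + e).choose e ≤ hF P (T + c) ∧ hF P T ≤ δ * (T + c + e).choose e := by
    intro T
    have := h T
    unfold hF
    rw [map_V_eq_Sx, map_V_eq_Sx]
    exact this
  have hes : e ≤ s := by
    refine exp_le_of_bound (A := 1) (B := e.factorial * C) (c := c) le_rfl fun T => ?_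
    calc 1 * (T + 1) ^ e ≤ δ * (e.factorial * (T + e).choose e) :=
          Nat.mul_le_mul hδ (le_fact_choose T e)
      _ = e.factorial * (δ * (T + e).choose e) := by ring
      _ ≤ e.factorial * (C * (T + c + 1) ^ s) :=
          Nat.mul_le_mul_left _ ((h' T).1.trans (hup _))
      _ = _ := by ring
  have hse : s ≤ e := by
    refine exp_le_of_bound (A := 1) (B := s.factorial * δ) (c := c + e) le_rfl fun T => ?_
    calc 1 * (T + 1) ^ s ≤ s.factorial * (T + s).choose s := by
          rw [one_mul]; exact le_fact_choose T s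
      _ ≤ s.factorial * (δ * (T + c + e).choose e) :=
          Nat.mul_le_mul_left _ ((hlow T).trans (h' T).2)
      _ ≤ s.factorial * (δ * (T + (c + e) + 1) ^ e) := by
          refine Nat.mul_le_mul_left _ (Nat.mul_le_mul_left _ ?_)
          have h1 := fact_choose_le (T + c) e
          have h2 : (T + c + e).choose e ≤ e.factorial * (T + c + e).choose e :=
            Nat.le_mul_of_pos_left _ (Nat.factorial_pos e)
          refine (h2.trans h1).trans (Nat.pow_le_pow_left (by omega) _)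
      _ = _ := by ring
  have heq : e = s := le_antisymm hes hse
  subst heq
  exact ⟨δ, hδ, c, h'⟩

end Vale.Agent.P054.T2.H163
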