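import Vale.Agent.P054.T2.H163.SepF

/-! P054 / T2: the abstract final count on one leaf. -/

namespace Vale.Agent.P054.T2.H163

open MvPolynomial H441

variable {K : Type*} [Field K] {τ : Type*} [Finite τ]

/-- **FINAL COUNT.** `A`: the edges on the leaf, `cl`: their classes, `P c`: the prime of the leaf
germ of the class `c`. -/
theorem final_count {ι κ : Type*} [DecidableEq κ] (A : Finset ι) (cl : ι → κ)
    (P : κ → Ideal (MvPolynomial τ K)) {D₀ D₁ D₂ D N s a₀ k₀ : ℕ}
    (hprime : ∀ i ∈ A, (P (cl i)).IsPrime)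
    (hlow : ∀ i ∈ A, ∀ n, (n + s).choose s ≤ hF (P (cl i)) n)
    (hmult : ∀ i ∈ A, ∀ S ⊆ A.image cl, (∀ c ∈ S, P c = P (cl i)) → S.card ≤ D₂)
    (hU : ∀ n, hF (⨅ i ∈ A, P (cl i)) n ≤ D * (n + 1) ^ s)
    (hcl : ∀ c ∈ A.image cl, ∀ k, k₀ ≤ k → (A.filter fun i => cl i = c).card * (k + s).choose s ≤
      D₀ * ((k + 1) * (N + 1) + a₀) ^ s + D₁ * hF (P c) ((k + 1) * (N + 1) + a₀)) :
    A.card ≤ s.factorial * (D₂ * (D₀ * (s.factorial * D) + D₁ * D)) * (N + 1) ^ s := by
  classical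
  set CL := A.image cl with hCL
  set Q := CL.image P with hQ
  have hQA : ∀ q ∈ Q, ∃ i ∈ A, P (cl i) = q := by
    intro q hq
    obtain ⟨c, hc, rfl⟩ := Finset.mem_image.1 hq
    obtain ⟨i, hi, rfl⟩ := Finset.mem_image.1 hc
    exact ⟨i, hi, rfl⟩
  have hinfle : ∀ i ∈ A, (⨅ i ∈ A, P (cl i)) ≤ P (cl i) := fun i hi => iInf₂_le i hi
  have hup : ∀ i ∈ A, ∀ n, hF (P (cl i)) n ≤ D * (n + 1) ^ s := fun i hi n =>
    (hF_anti (hinfle i hi) n).trans (hU n)
  -- incomparability
  have hinc : ∀ q q' : Q, q ≠ q' → ¬ (q : Ideal (MvPolynomial τ K)) ≤ q' := by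
    intro q q' hne hle
    obtain ⟨i, hi, hiq⟩ := hQA q q.2
    obtain ⟨j, hj, hjq⟩ := hQA q' q'.2
    refine not_lt (hprime i hi) (hup i hi) (hlow j hj) ?_
    rw [hiq, hjq]
    exact lt_of_le_of_ne hle fun h => hne (Subtype.ext h)
  obtain ⟨a, ha⟩ := additive (fun q : Q => (q : Ideal (MvPolynomial τ K)))
    (fun q => by
      obtain ⟨i, hi, hiq⟩ := hQA q q.2
      rw [← hiq]
      exact hprime i hi) hinc
  have hinf : (⨅ i ∈ A, P (cl i)) ≤ ⨅ q : Q, (q : Ideal (MvPolynomial τ K)) := by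
    refine le_iInf fun q => ?_
    obtain ⟨i, hi, hiq⟩ := hQA q q.2
    rw [← hiq]
    exact hinfle i hi
  -- sum over the distinct primes
  have hsum : ∀ n, ∑ q ∈ Q, hF q n ≤ D * (n + a + 1) ^ s := by
    intro n
    rw [← Finset.sum_coe_sort]
    exact (ha n).trans ((hF_anti hinf _).trans (hU _))
  -- the number of distinct primes
  have hQcard : Q.card ≤ s.factorial * D := by
    have h1 : ∀ k, 0 ≤ k → Q.card * (k + s).choose s ≤ D * ((k + 1) * (0 + 1) + a) ^ s := by
      intro k _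
      calc Q.card * (k + s).choose s = ∑ q ∈ Q, (k + s).choose s := by
            rw [Finset.sum_const, smul_eq_mul]
        _ ≤ ∑ q ∈ Q, hF q k := Finset.sum_le_sum fun q hq => by
            obtain ⟨i, hi, hiq⟩ := hQA q hq
            rw [← hiq]
            exact hlow i hi k
        _ ≤ D * (k + a + 1) ^ s := hsum k
        _ = _ := by ring_nf
    simpa using lim_bound (T := 0) h1
  -- multiplicities
  have hfib : ∀ q ∈ Q, (CL.filter fun c => P c = q).card ≤ D₂ := by
    intro q hq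
    obtain ⟨i, hi, hiq⟩ := hQA q hq
    refine hmult i hi _ (Finset.filter_subset _ _) ?_
    intro c hc
    rw [hiq]
    exact (Finset.mem_filter.1 hc).2
  have hCLcard : CL.card ≤ D₂ * (s.factorial * D) := by
    rw [Finset.card_eq_sum_card_image P CL]
    calc ∑ q ∈ CL.image P, (CL.filter fun c => P c = q).card ≤ ∑ q ∈ CL.image P, D₂ :=
          Finset.sum_le_sum fun q hq => hfib q hq
      _ = Q.card * D₂ := by rw [Finset.sum_const, smul_eq_mul]
      _ ≤ (s.factorial * D) * D₂ := Nat.mul_le_mul_right _ hQcard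
      _ = _ := by ring
  have hsumCL : ∀ n, ∑ c ∈ CL, hF (P c) n ≤ D₂ * (D * (n + a + 1) ^ s) := by
    intro n
    rw [← Finset.sum_fiberwise_of_maps_to (g := P) (t := Q)
      (fun c hc => Finset.mem_image_of_mem _ hc)]
    calc ∑ q ∈ Q, ∑ c ∈ CL.filter (fun c => P c = q), hF (P c) n
        = ∑ q ∈ Q, (CL.filter fun c => P c = q).card * hF q n := by
          refine Finset.sum_congr rfl fun q _ => ?_
          rw [← smul_eq_mul, ← Finset.sum_const]
          refine Finset.sum_congr rfl fun c hc => ?_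
          rw [(Finset.mem_filter.1 hc).2]
      _ ≤ ∑ q ∈ Q, D₂ * hF q n := Finset.sum_le_sum fun q hq =>
          Nat.mul_le_mul_right _ (hfib q hq)
      _ = D₂ * ∑ q ∈ Q, hF q n := by rw [Finset.mul_sum]
      _ ≤ _ := Nat.mul_le_mul_left _ (hsum n)
  -- the final inequality
  refine lim_bound (a := a₀ + a + 1) (k₀ := k₀) ?_
  intro k hk
  set n := (k + 1) * (N + 1) + a₀ with hn
  have hcard : A.card = ∑ c ∈ CL, (A.filter fun i => cl i = c).card :=
    Finset.card_eq_sum_card_image cl A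
  have hmono : n ^ s ≤ ((k + 1) * (N + 1) + (a₀ + a + 1)) ^ s :=
    Nat.pow_le_pow_left (by omega) _
  have heq : n + a + 1 = (k + 1) * (N + 1) + (a₀ + a + 1) := by omega
  calc A.card * (k + s).choose s
      = ∑ c ∈ CL, (A.filter fun i => cl i = c).card * (k + s).choose s := by
        rw [hcard, Finset.sum_mul]
    _ ≤ ∑ c ∈ CL, (D₀ * n ^ s + D₁ * hF (P c) n) := Finset.sum_le_sum fun c hc => hcl c hc k hk
    _ = CL.card * (D₀ * n ^ s) + D₁ * ∑ c ∈ CL, hF (P c) n := by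
        rw [Finset.sum_add_distrib, Finset.sum_const, smul_eq_mul, Finset.mul_sum]
    _ ≤ (D₂ * (s.factorial * D)) * (D₀ * ((k + 1) * (N + 1) + (a₀ + a + 1)) ^ s) +
        D₁ * (D₂ * (D * ((k + 1) * (N + 1) + (a₀ + a + 1)) ^ s)) := by
        have h1 := hsumCL n
        rw [heq] at h1
        gcongr
    _ = _ := by ring

end Vale.Agent.P054.T2.H163
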