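import Vale.Agent.P054.T2.H163.RegW

/-! P054 / T2: the final count over the classes = distinct primes, weighted filtration, where every
class is only known to be countable for infinitely many `k`. -/

namespace Vale.Agent.P054.T2.H163

open MvPolynomial H441 Filter
open H580 (IsFilt hilbF rkF Vw mem_Vw X_mem_Vw mul_mem_Vw C_mem_Vw isFilt_Vw)

variable {K : Type*} [Field K] {σ : Type*} [Finite σ]

/-- **FINAL COUNT, weighted.** `A`: edges on the leaf, `P i` the prime of the hat-leaf germ, the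
classes are the fibres of `P`. -/
theorem final_count_W [Infinite K] (w : σ → ℕ) {W : ℕ} (hW1 : 1 ≤ W)
    (hw : ∀ i, w i = 1 ∨ w i = W) {ι : Type*} (A : Finset ι)
    (P : ι → Ideal (MvPolynomial σ K)) [DecidableEq (Ideal (MvPolynomial σ K))]
    {D₀ D₁ D N G s : ℕ}
    (hprime : ∀ i ∈ A, (P i).IsPrime)
    (hlow : ∀ i ∈ A, ∀ n, (n + s).choose s ≤ hilbF (Vw K w) (P i) n)
    (hlowF : ∀ i ∈ A, ∀ n, (n + s).choose s ≤ hF (P i) n)
    (hU : ∀ n, hilbF (Vw K w) (⨅ i ∈ A, P i) n ≤ D * (n + 1) ^ s)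
    (hcl : ∀ i ∈ A, (A.filter fun j => P j = P i).card ≤ G ∨ ∃ a₀, ∀ k₀, ∃ k, k₀ ≤ k ∧
      (A.filter fun j => P j = P i).card * (k + s).choose s ≤
        D₀ * ((k + 1) * (N + 1) + a₀) ^ s +
          D₁ * hilbF (Vw K w) (P i) ((k + 1) * (N + 1) + a₀)) :
    A.card ≤ s.factorial * D * (G + (s.factorial * D₀ + D₁) * (N + 1) ^ s) := by
  classical
  have hw0 : ∀ i, w i ≠ 0 := fun i => by rcases hw i with h | h <;> omega
  have hwW : ∀ i, w i ≤ W := fun i => by rcases hw i with h | h <;> omega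
  have hV := isFilt_Vw (k := K) w hw0
  set Q := A.image P with hQ
  have hQA : ∀ q ∈ Q, ∃ i ∈ A, P i = q := fun q hq => Finset.mem_image.1 hq
  have hinfle : ∀ i ∈ A, (⨅ i ∈ A, P i) ≤ P i := fun i hi => iInf₂_le i hi
  have hup : ∀ i ∈ A, ∀ n, hilbF (Vw K w) (P i) n ≤ D * (n + 1) ^ s := fun i hi n =>
    (hV.hilbF_anti (hinfle i hi) n).trans (hU n)
  have hupF : ∀ i ∈ A, ∀ n, hF (P i) n ≤ (D * W ^ s) * (n + 1) ^ s := by
    intro i hi n
    refine (hF_le_hilbF_Vw w hw0 hwW (P i) n).trans ((hup i hi _).trans ?_)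
    calc D * (n * W + 1) ^ s ≤ D * (W * (n + 1)) ^ s := by
          refine Nat.mul_le_mul_left _ (Nat.pow_le_pow_left ?_ _)
          nlinarith
      _ = _ := by rw [mul_pow]; ring
  -- incomparability
  have hinc : ∀ q q' : Q, q ≠ q' → ¬ (q : Ideal (MvPolynomial σ K)) ≤ q' := by
    intro q q' hne hle
    obtain ⟨i, hi, hiq⟩ := hQA q q.2
    obtain ⟨j, hj, hjq⟩ := hQA q' q'.2
    refine not_lt (hprime i hi) (hupF i hi) (hlowF j hj) ?_
    rw [hiq, hjq]
    exact lt_of_le_of_ne hle fun h => hne (Subtype.ext h)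
  obtain ⟨a, ha⟩ := hV.additive (fun i => H580.X_mem_Vw_le w hwW i)
    (fun q : Q => (q : Ideal (MvPolynomial σ K)))
    (fun q => by
      obtain ⟨i, hi, hiq⟩ := hQA q q.2
      rw [← hiq]
      exact hprime i hi) hinc
  have hinf : (⨅ i ∈ A, P i) ≤ ⨅ q : Q, (q : Ideal (MvPolynomial σ K)) := by
    refine le_iInf fun q => ?_
    obtain ⟨i, hi, hiq⟩ := hQA q q.2
    rw [← hiq]
    exact hinfle i hi
  have hsum : ∀ n, ∑ q ∈ Q, hilbF (Vw K w) q n ≤ D * (n + a + 1) ^ s := by
    intro n
    rw [← Finset.sum_coe_sort]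
    exact (ha n).trans ((hV.hilbF_anti hinf _).trans (hU _))
  -- the number of distinct primes
  have hQcard : Q.card ≤ s.factorial * D := by
    have h1 : ∀ k, 0 ≤ k → Q.card * (k + s).choose s ≤ D * ((k + 1) * (0 + 1) + a) ^ s := by
      intro k _
      calc Q.card * (k + s).choose s = ∑ q ∈ Q, (k + s).choose s := by
            rw [Finset.sum_const, smul_eq_mul]
        _ ≤ ∑ q ∈ Q, hilbF (Vw K w) q k := Finset.sum_le_sum fun q hq => by
            obtain ⟨i, hi, hiq⟩ := hQA q hq
            rw [← hiq]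
            exact hlow i hi k
        _ ≤ D * (k + a + 1) ^ s := hsum k
        _ = _ := by ring_nf
    simpa using lim_bound (T := 0) h1
  -- degrees
  have hdeg : ∀ q ∈ Q, ∃ δ, 1 ≤ δ ∧ IsDeg (fun n => hilbF (Vw K w) q (n * W)) s δ := by
    intro q hq
    obtain ⟨i, hi, hiq⟩ := hQA q hq
    rw [← hiq]
    exact exists_degW w hW1 hw (P i) (hprime i hi) (hup i hi) (hlowF i hi)
  choose! δ hδ1 hδ using hdeg
  choose! c hc using hδ
  -- the sum of the degrees
  have hδsum : ∑ q ∈ Q, δ q ≤ s.factorial * (D * W ^ s) := by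
    set C := ∑ q ∈ Q, c q with hC
    refine le_of_freq (c := C + a + 1) (s := s) (Frequently.of_forall fun T => ?_)
    have hle : ∀ q ∈ Q, δ q * (T + s).choose s ≤ hilbF (Vw K w) q ((T + C) * W) := by
      intro q hq
      refine (hc q hq T).1.trans (hV.hilbF_mono q ?_)
      have : c q ≤ C := Finset.single_le_sum (f := c) (fun _ _ => Nat.zero_le _) hq
      exact Nat.mul_le_mul_right _ (by omega)
    have h1 : (∑ q ∈ Q, δ q) * (T + s).choose s ≤ D * ((T + C) * W + a + 1) ^ s := by
      rw [Finset.sum_mul]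
      exact (Finset.sum_le_sum hle).trans (hsum _)
    calc (∑ q ∈ Q, δ q) * (T + 1) ^ s ≤ (∑ q ∈ Q, δ q) * (s.factorial * (T + s).choose s) :=
          Nat.mul_le_mul_left _ (le_fact_choose T s)
      _ = s.factorial * ((∑ q ∈ Q, δ q) * (T + s).choose s) := by ring
      _ ≤ s.factorial * (D * ((T + C) * W + a + 1) ^ s) := Nat.mul_le_mul_left _ h1
      _ ≤ s.factorial * (D * (W * (T + (C + a + 1))) ^ s) := by
          refine Nat.mul_le_mul_left _ (Nat.mul_le_mul_left _ (Nat.pow_le_pow_left ?_ _))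
          have h2 : a + 1 ≤ W * (a + 1) := Nat.le_mul_of_pos_left _ hW1
          nlinarith
      _ = _ := by rw [mul_pow]; ring
  -- one class
  have hone : ∀ q ∈ Q, W ^ s * (A.filter fun j => P j = q).card ≤
      W ^ s * G + (s.factorial * D₀ * W ^ s + D₁ * δ q) * (N + 1) ^ s := by
    intro q hq
    obtain ⟨i, hi, hiq⟩ := hQA q hq
    have hci := hcl i hi
    rw [hiq] at hci
    rcases hci with h | ⟨a₀, h⟩
    · refine (Nat.mul_le_mul_left _ h).trans (Nat.le_add_right _ _)
    · refine le_trans ?_ (Nat.le_add_left _ _)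
      set M := (A.filter fun j => P j = q).card with hM
      refine le_of_freq (c := 1 + a₀ + (W + W * c q + W * s)) (s := s) ?_
      rw [frequently_atTop]
      intro k₀
      obtain ⟨k, hk, hkk⟩ := h k₀
      refine ⟨k, hk, ?_⟩
      set n := (k + 1) * (N + 1) + a₀ with hn
      have h1 : n ≤ (n / W + 1) * W := by
        have := Nat.lt_div_mul_add (a := n) hW1
        rw [add_mul, one_mul]
        omega
      have h2 : hilbF (Vw K w) q n ≤ δ q * (n / W + 1 + c q + s).choose s :=
        (hV.hilbF_mono q h1).trans (hc q hq (n / W + 1)).2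
      have h3 : W * (n / W + 1 + c q + s) ≤ n + (W + W * c q + W * s) := by
        have := Nat.mul_div_le n W
        calc W * (n / W + 1 + c q + s) = W * (n / W) + (W + W * c q + W * s) := by ring
          _ ≤ _ := by omega
      have h4 : n + (W + W * c q + W * s) ≤
          (N + 1) * (k + (1 + a₀ + (W + W * c q + W * s))) := by
        rw [hn]
        have e1 : (N + 1) * (k + (1 + a₀ + (W + W * c q + W * s))) =
            (k + 1) * (N + 1) + (N + 1) * (a₀ + (W + W * c q + W * s)) := by ring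
        rw [e1]
        have e2 : a₀ + (W + W * c q + W * s) ≤ (N + 1) * (a₀ + (W + W * c q + W * s)) :=
          Nat.le_mul_of_pos_left _ (Nat.succ_pos _)
        omega
      have h5 : n ≤ (N + 1) * (k + (1 + a₀ + (W + W * c q + W * s))) := by omega
      have h6 : s.factorial * hilbF (Vw K w) q n * W ^ s ≤
          δ q * ((N + 1) * (k + (1 + a₀ + (W + W * c q + W * s)))) ^ s := by
        calc s.factorial * hilbF (Vw K w) q n * W ^ s
            ≤ s.factorial * (δ q * (n / W + 1 + c q + s).choose s) * W ^ s := by gcongr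
          _ = δ q * (s.factorial * (n / W + 1 + c q + s).choose s) * W ^ s := by ring
          _ ≤ δ q * (n / W + 1 + c q + s) ^ s * W ^ s := by
              have := fact_choose_le (n / W + 1 + c q) s
              gcongr
          _ = δ q * (W * (n / W + 1 + c q + s)) ^ s := by rw [mul_pow]; ring
          _ ≤ δ q * ((N + 1) * (k + (1 + a₀ + (W + W * c q + W * s)))) ^ s := by
              refine Nat.mul_le_mul_left _ (Nat.pow_le_pow_left (h3.trans h4) _)
      calc W ^ s * M * (k + 1) ^ s ≤ W ^ s * M * (s.factorial * (k + s).choose s) :=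
            Nat.mul_le_mul_left _ (le_fact_choose k s)
        _ = s.factorial * W ^ s * (M * (k + s).choose s) := by ring
        _ ≤ s.factorial * W ^ s * (D₀ * n ^ s + D₁ * hilbF (Vw K w) q n) :=
            Nat.mul_le_mul_left _ hkk
        _ = s.factorial * D₀ * W ^ s * n ^ s +
            D₁ * (s.factorial * hilbF (Vw K w) q n * W ^ s) := by ring
        _ ≤ s.factorial * D₀ * W ^ s *
              ((N + 1) * (k + (1 + a₀ + (W + W * c q + W * s)))) ^ s +
            D₁ * (δ q * ((N + 1) * (k + (1 + a₀ + (W + W * c q + W * s)))) ^ s) := by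
            gcongr
        _ = _ := by rw [mul_pow]; ring
  -- summation
  have hWs : 0 < W ^ s := pow_pos hW1 s
  refine Nat.le_of_mul_le_mul_left ?_ hWs
  calc W ^ s * A.card = ∑ q ∈ Q, W ^ s * (A.filter fun j => P j = q).card := by
        rw [← Finset.mul_sum, Finset.card_eq_sum_card_image P A]
    _ ≤ ∑ q ∈ Q, (W ^ s * G + (s.factorial * D₀ * W ^ s + D₁ * δ q) * (N + 1) ^ s) :=
        Finset.sum_le_sum hone
    _ = Q.card * (W ^ s * G + s.factorial * D₀ * W ^ s * (N + 1) ^ s) +
        D₁ * (N + 1) ^ s * ∑ q ∈ Q, δ q := by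
        rw [Finset.mul_sum, ← smul_eq_mul (Q.card), ← Finset.sum_const, ← Finset.sum_add_distrib]
        refine Finset.sum_congr rfl fun q _ => ?_
        ring
    _ ≤ (s.factorial * D) * (W ^ s * G + s.factorial * D₀ * W ^ s * (N + 1) ^ s) +
        D₁ * (N + 1) ^ s * (s.factorial * (D * W ^ s)) := by gcongr
    _ = _ := by ring

end Vale.Agent.P054.T2.H163
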