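import Vale.Agent.P054.T2.H163.Hilb
import Vale.Agent.P054.T2.H622.Cone

/-! P054 / T2, [REG]: the graded Hilbert functions `T ↦ finrank (Sx k x T)` of finitely many elements
of a domain are asymptotically regular: there is an exact degree `δ`. -/

namespace Vale.Agent.P054.T2.H163

open MvPolynomial
open Vale.Agent.P054.T2.H431 (Sx mem_Sx one_mem_Sx mul_mem_Sx self_mem_Sx finite_Sx Gr mem_Gr
  Gr_mul Gr_zero_mem aeval_mem_of_graded SInd prod_mem_S y_pow_mul_mem_Gr' y_pow_mul_mem_Gr)

variable {k : Type*} [Field k]

theorem finrank_hom (e T : ℕ) :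
    Module.finrank k (homogeneousSubmodule (Fin (e + 1)) k T) = (T + e).choose e := by
  classical
  have h1 : homogeneousSubmodule (Fin (e + 1)) k T =
      restrictSupport k {d : Fin (e + 1) →₀ ℕ | d.degree = T} :=
    homogeneousSubmodule_eq_finsupp_supported _ _ _
  rw [h1, Module.finrank_eq_nat_card_basis (basisRestrictSupport k _)]
  have h2 : {d : Fin (e + 1) →₀ ℕ | d.degree = T} =
      ((Finset.univ : Finset (Fin (e + 1))).finsuppAntidiag T : Set _) := by
    ext d
    rw [Set.mem_ofPred_eq, Finset.mem_coe, Finset.mem_finsuppAntidiag]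
    constructor
    · intro h
      refine ⟨?_, Finset.subset_univ _⟩
      rw [← h, Finsupp.degree_eq_sum]
    · rintro ⟨h, -⟩
      rw [← h, Finsupp.degree_eq_sum]
  rw [h2]
  rw [Nat.card_coe_set_eq, Set.ncard_coe_finset, Finset.card_finsuppAntidiag_nat_eq_choose,
    Finset.card_univ, Fintype.card_fin]
  have h3 : e + 1 + T - 1 = T + e := by omega
  rw [h3]
  exact Nat.choose_symm_add

variable {R : Type*} [CommRing R] [Algebra k R]

/-- homogeneous independence -/
def HInd (k : Type*) {R : Type*} [Field k] [CommRing R] [Algebra k R] {ι : Type*} (y : ι → R) :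
    Prop := ∀ (T : ℕ) (F : MvPolynomial ι k), F.IsHomogeneous T → aeval y F = 0 → F = 0

theorem finrank_Sx_of_HInd {e : ℕ} {y : Fin (e + 1) → R} (hy : HInd k y) (T : ℕ) :
    Module.finrank k (Sx k y T) = (T + e).choose e := by
  rw [← finrank_hom (k := k) e T]
  let f : homogeneousSubmodule (Fin (e + 1)) k T →ₗ[k] R :=
    (aeval y : MvPolynomial (Fin (e + 1)) k →ₐ[k] R).toLinearMap.domRestrict _
  have hf : Function.Injective f := by
    rw [injective_iff_map_eq_zero]
    intro F hF
    exact Subtype.ext (hy T F F.2 hF)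
  rw [← LinearMap.finrank_range_of_inj hf, LinearMap.range_domRestrict]
  rfl

theorem Sx_le_Sx {ι ι' : Type*} (x : ι → R) (x' : ι' → R) (h : ∀ j, x' j ∈ Sx k x 1) (T : ℕ) :
    Sx k x' T ≤ Sx k x T := by
  intro u hu
  obtain ⟨F, hF, rfl⟩ := mem_Sx.1 hu
  exact aeval_mem_of_graded (Sx k x) (one_mem_Sx x) (mul_mem_Sx x) x' h hF

theorem Sx_zero_eq {ι : Type*} (T : ℕ) (hT : 0 < T) {u : R} (hu : u ∈ Sx k (0 : ι → R) T) :
    u = 0 := by
  classical
  obtain ⟨F, hF, rfl⟩ := mem_Sx.1 hu
  rw [aeval_def, eval₂_eq]
  refine Finset.sum_eq_zero fun d hd => ?_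
  have h3 : ∑ l ∈ d.support, d l = T := by
    have := hF (mem_support_iff.1 hd)
    rw [← this, Finsupp.weight_apply, Finsupp.sum]
    simp
  have h4 : ∃ l ∈ d.support, d l ≠ 0 := by
    by_contra hcon
    push Not at hcon
    rw [Finset.sum_eq_zero hcon] at h3
    omega
  obtain ⟨l, hl, hl0⟩ := h4
  rw [Finset.prod_eq_zero hl, mul_zero]
  simp [hl0]

theorem noether [IsDomain R] [Infinite k] (m : ℕ) : ∀ (x : Fin m → R), x ≠ 0 →
    ∃ (e : ℕ) (y : Fin (e + 1) → R), HInd k y ∧ (∀ j, y j ∈ Sx k x 1) ∧
      ∃ (ι : Type) (_ : Fintype ι) (w : ι → R) (d : ι → ℕ), (∀ i, w i ∈ Sx k x (d i)) ∧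
        ∀ T, ∀ u ∈ Sx k x T, ∃ a : ι → R, (∀ i, d i ≤ T → a i ∈ Sx k y (T - d i)) ∧
          (∀ i, T < d i → a i = 0) ∧ u = ∑ i, a i * w i := by
  induction m with
  | zero =>
    intro x hx
    exact absurd (Subsingleton.elim x 0) hx
  | succ m ih =>
    intro x hx
    by_cases hind : HInd k x
    · refine ⟨m, x, hind, fun j => self_mem_Sx x j, Unit, inferInstance, fun _ => 1, fun _ => 0,
        fun _ => one_mem_Sx x, fun T u hu => ⟨fun _ => u, ?_, ?_, ?_⟩⟩
      · intro _ _
        simpa using hu
      · intro _ h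
        exact absurd h (Nat.not_lt_zero _)
      · simp
    · unfold HInd at hind
      push Not at hind
      obtain ⟨D, G, hG, hG0, hGne⟩ := hind
      have hD : 0 < D := by
        rcases Nat.eq_zero_or_pos D with h | h
        · exfalso
          subst h
          have h1 : G = C (coeff 0 G) :=
            totalDegree_eq_zero_iff_eq_C.mp (Nat.le_zero.mp hG.totalDegree_le)
          rw [h1, aeval_C] at hG0
          have h2 : coeff 0 G = 0 :=
            (FaithfulSMul.algebraMap_injective k R) (by rw [hG0, map_zero])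
          rw [h2, map_zero] at h1
          exact hGne h1
        · exact h
      obtain ⟨n, hn⟩ : ∃ n : Fin (m + 1) → k, eval n G ≠ 0 := by
        by_contra hcon
        push Not at hcon
        exact hGne (MvPolynomial.funext fun n => by rw [hcon n, map_zero])
      obtain ⟨i₀, hi₀⟩ : ∃ i₀, n i₀ ≠ 0 := by
        by_contra hcon
        push Not at hcon
        apply hn
        have h1 : n = 0 := funext hcon
        rw [h1]
        have h2 : aeval (0 : Fin (m + 1) → k) G = 0 :=
          Sx_zero_eq (k := k) D hD (mem_Sx.2 ⟨G, hG, rfl⟩)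
        rw [← h2, aeval_eq_eval]
      set y : R := (n i₀)⁻¹ • x i₀ with hy
      set x' : Fin m → R := fun j => x (i₀.succAbove j) - n (i₀.succAbove j) • y with hx'
      have hyx : x i₀ = n i₀ • y := by
        rw [hy, smul_smul, mul_inv_cancel₀ hi₀, one_smul]
      have hxl : ∀ l, x l = ∑ j, (if l = i₀.succAbove j then (1 : k) else 0) • x' j + n l • y := by
        intro l
        rcases Fin.eq_self_or_eq_succAbove i₀ l with h | ⟨j, h⟩
        · subst h
          rw [Finset.sum_eq_zero, zero_add]
          · exact hyx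
          · intro j _
            rw [if_neg (Fin.succAbove_ne l j).symm, zero_smul]
        · subst h
          rw [Finset.sum_eq_single j]
          · simp [hx']
          · intro j' _ hj'
            rw [if_neg (fun h => hj' (Fin.succAbove_right_injective h).symm), zero_smul]
          · intro h
            exact absurd (Finset.mem_univ j) h
      have hy1 : y ∈ Sx k x 1 := Submodule.smul_mem _ _ (self_mem_Sx x i₀)
      have hx'1 : ∀ j, x' j ∈ Sx k x 1 := fun j =>
        Submodule.sub_mem _ (self_mem_Sx x _) (Submodule.smul_mem _ _ hy1)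
      obtain ⟨c, hc, hcy⟩ := Vale.Agent.P054.T2.H622.cone_relation hG
        (fun l j => if l = i₀.succAbove j then (1 : k) else 0) n x' y (by
          have : (fun l => ∑ j, (if l = i₀.succAbove j then (1 : k) else 0) • x' j + n l • y) = x :=
            funext fun l => (hxl l).symm
          rw [this]
          exact hG0) hn
      have hx'0 : x' ≠ 0 := by
        intro h0
        rw [h0] at hc
        have h1 : y ^ D = 0 := by
          rw [hcy]
          refine Finset.sum_eq_zero fun j hj => ?_
          have hjD := Finset.mem_range.1 hj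
          rw [Sx_zero_eq (D - j) (by omega) (hc j hjD), mul_zero]
        have h2 : y = 0 := pow_eq_zero_iff hD.ne' |>.1 h1
        apply hx
        funext l
        rw [hxl l, h0, h2]
        simp
      obtain ⟨e, z, hz, hzx, ι, hι, w, d, hw, hrep⟩ := ih x' hx'0
      refine ⟨e, z, hz, fun j => Sx_le_Sx x x' hx'1 1 (hzx j), Fin D × ι, inferInstance,
        fun p => y ^ (p.1 : ℕ) * w p.2, fun p => p.1 + d p.2, ?_, ?_⟩
      · intro p
        refine mul_mem_Sx x _ _ _ _ ?_ (Sx_le_Sx x x' hx'1 _ (hw p.2))
        have : ∀ a : ℕ, y ^ a ∈ Sx k x a := by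
          intro a
          induction a with
          | zero => simpa using one_mem_Sx (k := k) x
          | succ a ih' =>
            rw [pow_succ]
            exact mul_mem_Sx x _ _ _ _ ih' hy1
        exact this _
      · intro T u hu
        obtain ⟨F, hF, rfl⟩ := mem_Sx.1 hu
        have hGr : aeval x F ∈ Gr (Sx k x') y D T := by
          refine aeval_mem_of_graded (Gr (Sx k x') y D) (Gr_zero_mem hD (one_mem_Sx x'))
            (fun a b u v hu hv => Gr_mul (mul_mem_Sx x') c hc hcy a b u v hu hv) x ?_ hF
          intro l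
          rw [hxl l]
          refine Submodule.add_mem _ (Submodule.sum_mem _ fun j _ => Submodule.smul_mem _ _ ?_)
            (Submodule.smul_mem _ _ ?_)
          · exact Gr_zero_mem hD (self_mem_Sx x' j)
          · have := y_pow_mul_mem_Gr' (one_mem_Sx x') (mul_mem_Sx x') hD c hc hcy (a := 1) (b := 0)
              (one_mem_Sx (k := k) x')
            simpa using this
        obtain ⟨v, hv, hv0, hvs⟩ := mem_Gr.1 hGr
        choose! b hb hb0 hbs using hrep
        refine ⟨fun p => if (p.1 : ℕ) ≤ T then b (T - p.1) (v p.1) p.2 else 0, ?_, ?_, ?_⟩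
        · rintro ⟨p, i⟩ hp
          have h1 : (p : ℕ) ≤ T := le_trans (Nat.le_add_right _ _) hp
          simp only [h1, if_true]
          have h2 := hb (T - p) (v p) (hv p h1) i (by simp only at hp; omega)
          have h3 : T - p - d i = T - (p + d i) := by omega
          rwa [h3] at h2
        · rintro ⟨p, i⟩ hp
          by_cases h1 : (p : ℕ) ≤ T
          · simp only [h1, if_true]
            exact hb0 (T - p) (v p) (hv p h1) i (by simp only at hp; omega)
          · simp [h1]
        · rw [hvs, Fintype.sum_prod_type, ← Fin.sum_univ_eq_sum_range (fun a => y ^ a * v a) D]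
          refine Finset.sum_congr rfl fun p _ => ?_
          by_cases h1 : (p : ℕ) ≤ T
          · simp only [h1, if_true]
            conv_lhs => rw [hbs (T - p) (v p) (hv p h1)]
            rw [Finset.mul_sum]
            refine Finset.sum_congr rfl fun i _ => ?_
            ring
          · rw [hv0 p (by omega)]
            simp [h1]

/-- a maximal independent subfamily controls all combinations (431's `nd_core`, with the exact
number of elements of the subfamily) -/
theorem nd_exact [IsDomain R] (S : ℕ → Submodule k R) (h1 : (1 : R) ∈ S 0)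
    (hmul : ∀ a b (u v : R), u ∈ S a → v ∈ S b → u * v ∈ S (a + b))
    (hfin : ∀ T, Module.Finite k (S T)) {ι : Type*} [Fintype ι] (w : ι → R) :
    ∃ s : Finset ι, SInd S w s ∧ ∃ C : ℕ, ∀ (T : ℕ) (U : Submodule k R),
      (∀ u ∈ U, ∃ a : ι → R, (∀ i, a i ∈ S T) ∧ u = ∑ i, a i * w i) →
      Module.finrank k U ≤ s.card * Module.finrank k (S (T + C)) := by
  classical
  -- a maximal independent subset
  obtain ⟨s, hs, hmax⟩ : ∃ s : Finset ι, SInd S w s ∧
      ∀ s' : Finset ι, SInd S w s' → s'.card ≤ s.card := by
    have hne : ((Finset.univ : Finset (Finset ι)).filter (fun s => SInd S w s)).Nonempty :=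
      ⟨∅, Finset.mem_filter.2 ⟨Finset.mem_univ _,
        fun T a _ _ i hi => absurd hi (Finset.notMem_empty i)⟩⟩
    obtain ⟨s, hs, hm⟩ := Finset.exists_max_image _ (fun s : Finset ι => s.card) hne
    refine ⟨s, (Finset.mem_filter.1 hs).2, fun s' hs' => ?_⟩
    exact hm s' (Finset.mem_filter.2 ⟨Finset.mem_univ _, hs'⟩)
  refine ⟨s, hs, ?_⟩
  -- every `w i` is a quotient combination of the `w l`, `l ∈ s`
  have hrep : ∀ i : ι, ∃ (t : ℕ) (b : R) (α : ι → R), b ∈ S t ∧ b ≠ 0 ∧ (∀ l, α l ∈ S t) ∧
      b * w i = ∑ l ∈ s, α l * w l := by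
    intro i
    by_cases hi : i ∈ s
    · refine ⟨0, 1, fun l => if l = i then 1 else 0, h1, one_ne_zero, ?_, ?_⟩
      · intro l
        by_cases hl : l = i
        · simpa [hl] using h1
        · simp [hl]
      · rw [Finset.sum_eq_single i]
        · simp
        · intro l _ hl
          simp [hl]
        · intro h
          exact absurd hi h
    · have hnot : ¬ SInd S w (insert i s) := by
        intro h
        have := hmax _ h
        rw [Finset.card_insert_of_notMem hi] at this
        omega
      unfold SInd at hnot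
      push Not at hnot
      obtain ⟨T, a, ha, hsum, j, hj, hj0⟩ := hnot
      rw [Finset.sum_insert hi] at hsum
      have hai : a i ≠ 0 := by
        intro h0
        rw [h0, zero_mul, zero_add] at hsum
        have hz := hs T a (fun l hl => ha l (Finset.mem_insert_of_mem hl)) hsum
        rcases Finset.mem_insert.1 hj with rfl | hj'
        · exact hj0 h0
        · exact hj0 (hz j hj')
      refine ⟨T, a i, fun l => if l ∈ s then - a l else 0, ha i (Finset.mem_insert_self _ _), hai,
        ?_, ?_⟩
      · intro l
        by_cases hl : l ∈ s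
        · simpa [hl] using ha l (Finset.mem_insert_of_mem hl)
        · simp [hl]
      · rw [eq_neg_of_add_eq_zero_left hsum, ← Finset.sum_neg_distrib]
        refine Finset.sum_congr rfl fun l hl => ?_
        simp [hl]
  choose t b α hb hb0 hα hrel using hrep
  refine ⟨∑ i, t i, fun T U hU => ?_⟩
  set β : R := ∏ i, b i with hβ
  have hβ0 : β ≠ 0 := Finset.prod_ne_zero_iff.2 fun i _ => hb0 i
  -- the target of dimension `|s| * dim S (T + C)`
  let φ : (s → S (T + ∑ i, t i)) →ₗ[k] R :=
    { toFun := fun c => ∑ l : s, (c l : R) * w l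
      map_add' := by
        intro c c'
        simp [add_mul, Finset.sum_add_distrib]
      map_smul' := by
        intro r c
        simp [Finset.smul_sum] }
  let ψ : U →ₗ[k] R := (LinearMap.mulLeft k β).comp U.subtype
  have hψinj : Function.Injective ψ := by
    intro u v huv
    have : β * (u : R) = β * (v : R) := huv
    exact Subtype.ext (mul_left_cancel₀ hβ0 this)
  have hle : LinearMap.range ψ ≤ LinearMap.range φ := by
    rintro _ ⟨u, rfl⟩
    obtain ⟨a, ha, hu⟩ := hU u u.2
    -- cofactor of `b i`
    have hcof : ∀ i, β = (∏ j ∈ Finset.univ.erase i, b j) * b i := fun i => by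
      rw [hβ, mul_comm, Finset.mul_prod_erase _ _ (Finset.mem_univ i)]
    have hcofmem : ∀ i l, (∏ j ∈ Finset.univ.erase i, b j) * α i l ∈ S (∑ i, t i) := by
      intro i l
      have h := hmul _ _ _ _ (prod_mem_S h1 hmul (Finset.univ.erase i) b t fun j _ => hb j)
        (hα i l)
      rwa [Finset.sum_erase_add _ _ (Finset.mem_univ i)] at h
    refine ⟨fun l => ⟨∑ i, a i * ((∏ j ∈ Finset.univ.erase i, b j) * α i l), ?_⟩, ?_⟩
    · exact Submodule.sum_mem _ fun i _ => hmul _ _ _ _ (ha i) (hcofmem i l)
    · change ∑ l : s, (∑ i, a i * ((∏ j ∈ Finset.univ.erase i, b j) * α i l)) * w l = β * (u : R)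
      rw [hu, Finset.mul_sum, Finset.sum_coe_sort s
        (fun l => (∑ i, a i * ((∏ j ∈ Finset.univ.erase i, b j) * α i l)) * w l)]
      simp_rw [Finset.sum_mul]
      rw [Finset.sum_comm]
      refine Finset.sum_congr rfl fun i _ => ?_
      calc ∑ l ∈ s, a i * ((∏ j ∈ Finset.univ.erase i, b j) * α i l) * w l
          = a i * (∏ j ∈ Finset.univ.erase i, b j) * ∑ l ∈ s, α i l * w l := by
            rw [Finset.mul_sum]
            refine Finset.sum_congr rfl fun l _ => ?_
            ring
        _ = β * (a i * w i) := by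
            rw [← hrel i, hcof i]
            ring
  have : ∀ T, Module.Finite k (S T) := hfin
  calc Module.finrank k U = Module.finrank k (LinearMap.range ψ) :=
        (LinearMap.finrank_range_of_inj hψinj).symm
    _ ≤ Module.finrank k (LinearMap.range φ) := Submodule.finrank_mono hle
    _ ≤ Module.finrank k (s → S (T + ∑ i, t i)) := LinearMap.finrank_range_le φ
    _ = s.card * Module.finrank k (S (T + ∑ i, t i)) := by
        rw [Module.finrank_pi_fintype]
        simp

/-- the combinations of an independent subfamily have the full dimension -/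
theorem card_mul_le_of_SInd {S : ℕ → Submodule k R} (hfin : ∀ T, Module.Finite k (S T))
    {ι : Type*} {w : ι → R} {s : Finset ι} (hs : SInd S w s) (T : ℕ) (U : Submodule k R)
    [Module.Finite k U] (hU : ∀ i ∈ s, ∀ a ∈ S T, a * w i ∈ U) :
    s.card * Module.finrank k (S T) ≤ Module.finrank k U := by
  classical
  have : ∀ T, Module.Finite k (S T) := hfin
  let φ : (s → S T) →ₗ[k] U :=
    { toFun := fun c => ⟨∑ l : s, (c l : R) * w l,
        Submodule.sum_mem _ fun l _ => hU l l.2 _ (c l).2⟩
      map_add' := by
        intro c c'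
        apply Subtype.ext
        simp [add_mul, Finset.sum_add_distrib]
      map_smul' := by
        intro r c
        apply Subtype.ext
        simp [Finset.smul_sum] }
  have hφ : Function.Injective φ := by
    rw [injective_iff_map_eq_zero]
    intro c hc
    have h1 : ∑ l : s, (c l : R) * w l = 0 := congrArg Subtype.val hc
    have h2 := hs T (fun i => if h : i ∈ s then (c ⟨i, h⟩ : R) else 0)
      (fun i hi => by simp only [hi, dif_pos]; exact (c ⟨i, hi⟩).2)
      (by
        rw [← Finset.sum_coe_sort s, ← h1]
        refine Finset.sum_congr rfl fun l _ => ?_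
        simp)
    funext l
    apply Subtype.ext
    have h3 := h2 l l.2
    simpa using h3
  have h4 := LinearMap.finrank_le_finrank_of_injective hφ
  rw [Module.finrank_pi_fintype] at h4
  simpa using h4

/-- **[REG]**: exact degree of the graded Hilbert function of finitely many elements of a domain -/
theorem reg [IsDomain R] [Infinite k] {m : ℕ} (x : Fin m → R) (hx : x ≠ 0) :
    ∃ e δ c : ℕ, 1 ≤ δ ∧ ∀ T, δ * (T + e).choose e ≤ Module.finrank k (Sx k x (T + c)) ∧
      Module.finrank k (Sx k x T) ≤ δ * (T + c + e).choose e := by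
  classical
  obtain ⟨e, y, hy, hyx, ι, hι, w, d, hw, hrep⟩ := noether (k := k) m x hx
  have hfin : ∀ T, Module.Finite k (Sx k y T) := fun T => finite_Sx y T
  have hfinx : ∀ T, Module.Finite k (Sx k x T) := fun T => finite_Sx x T
  have hyx' : ∀ T, Sx k y T ≤ Sx k x T := Sx_le_Sx x y hyx
  set z : R := y 0 with hz
  have hz0 : z ≠ 0 := by
    intro h0
    have h1 := hy 1 (X 0) (isHomogeneous_X _ _) (by rw [aeval_X]; exact h0)
    exact X_ne_zero _ h1
  set B : ℕ := ∑ i, d i with hB
  have hdB : ∀ i, d i ≤ B := fun i =>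
    Finset.single_le_sum (f := d) (fun _ _ => Nat.zero_le _) (Finset.mem_univ i)
  have hzpow : ∀ a : ℕ, z ^ a ∈ Sx k y a := by
    intro a
    induction a with
    | zero => simpa using one_mem_Sx (k := k) y
    | succ a ih =>
      rw [pow_succ]
      exact mul_mem_Sx y _ _ _ _ ih (self_mem_Sx y 0)
  set ω : ι → R := fun i => w i * z ^ (B - d i) with hω
  have hωx : ∀ i, ω i ∈ Sx k x B := by
    intro i
    have h1 := mul_mem_Sx x _ _ _ _ (hw i) (hyx' _ (hzpow (B - d i)))
    have h2 : d i + (B - d i) = B := by have := hdB i; omega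
    rwa [h2] at h1
  obtain ⟨s, hs, C, hC⟩ := nd_exact (Sx k y) (one_mem_Sx y) (mul_mem_Sx y) hfin ω
  -- the image of `Sx T` under multiplication by `z ^ B`
  have hup : ∀ T, Module.finrank k (Sx k x T) ≤ s.card * (T + C + e).choose e := by
    intro T
    let μ : R →ₗ[k] R := LinearMap.mulLeft k (z ^ B)
    have hμ : Function.Injective μ := fun a b hab => mul_left_cancel₀ (pow_ne_zero B hz0) hab
    have h1 := hC T ((Sx k x T).map μ) (by
      rintro _ ⟨u, hu, rfl⟩
      obtain ⟨a, ha, ha0, hau⟩ := hrep T u hu
      refine ⟨fun i => a i * z ^ (d i), ?_, ?_⟩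
      · intro i
        by_cases h : d i ≤ T
        · have := mul_mem_Sx y _ _ _ _ (ha i h) (hzpow (d i))
          have h2 : T - d i + d i = T := by omega
          rwa [h2] at this
        · simp only [ha0 i (by omega), zero_mul]
          exact Submodule.zero_mem _
      · change z ^ B * u = _
        rw [hau, Finset.mul_sum]
        refine Finset.sum_congr rfl fun i _ => ?_
        have h3 : z ^ B = z ^ (d i) * z ^ (B - d i) := by
          rw [← pow_add]
          congr 1
          have := hdB i
          omega
        rw [h3, hω]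
        ring)
    rw [finrank_Sx_of_HInd hy] at h1
    refine le_trans ?_ h1
    exact (LinearEquiv.finrank_eq (Submodule.equivMapOfInjective μ hμ _)).le
  have hlow : ∀ T, s.card * (T + e).choose e ≤ Module.finrank k (Sx k x (T + B)) := by
    intro T
    have h1 := card_mul_le_of_SInd hfin hs T (Sx k x (T + B)) (fun i _ a ha =>
      mul_mem_Sx x _ _ _ _ (hyx' _ ha) (hωx i))
    rwa [finrank_Sx_of_HInd hy] at h1
  refine ⟨e, s.card, B + C, ?_, fun T => ⟨?_, ?_⟩⟩
  · rw [Nat.one_le_iff_ne_zero]
    intro h0
    have h1 := hup 0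
    rw [h0, zero_mul] at h1
    have h2 : Module.finrank k (Sx k x 0) = 0 := Nat.le_zero.1 h1
    have h3 := Submodule.finrank_eq_zero.1 h2
    have h4 := one_mem_Sx (k := k) x
    rw [h3, Submodule.mem_bot] at h4
    exact one_ne_zero h4
  · refine (hlow T).trans ?_
    -- monotone: multiplication by `z ^ C`
    let μ : R →ₗ[k] R := LinearMap.mulLeft k (z ^ C)
    have hμ : Function.Injective μ := fun a b hab => mul_left_cancel₀ (pow_ne_zero C hz0) hab
    have h5 : (Sx k x (T + B)).map μ ≤ Sx k x (T + (B + C)) := by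
      rintro _ ⟨u, hu, rfl⟩
      have := mul_mem_Sx x _ _ _ _ (hyx' _ (hzpow C)) hu
      have h6 : C + (T + B) = T + (B + C) := by omega
      rwa [h6] at this
    rw [LinearEquiv.finrank_eq (Submodule.equivMapOfInjective μ hμ (Sx k x (T + B)))]
    exact Submodule.finrank_mono h5
  · refine (hup T).trans (Nat.mul_le_mul_left _ ?_)
    exact Nat.choose_le_choose _ (by omega)

end Vale.Agent.P054.T2.H163
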