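import Vale.Agent.P054.T2.H163.Deg
import Vale.Agent.P054.T2.H580.FiltDense

/-! P054 / T2: exact degree of the Hilbert function of a prime for the weighted filtration
(weights `1` and `W`), along the multiples of `W`. -/

namespace Vale.Agent.P054.T2.H163

open MvPolynomial H441 Filter
open H580 (IsFilt hilbF rkF Vw mem_Vw X_mem_Vw mul_mem_Vw C_mem_Vw isFilt_Vw)
open Vale.Agent.P054.T2.H431 (Sx mem_Sx one_mem_Sx mul_mem_Sx self_mem_Sx finite_Sx
  aeval_mem_of_graded)

variable {K : Type*} [Field K]

section gen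

variable {R : Type*} [CommRing R] [Algebra K R]

theorem Sx_one {ι : Type*} (x : ι → R) : Sx K x 1 = Submodule.span K (Set.range x) := by
  unfold Sx
  rw [homogeneousSubmodule_one_eq_span_X, Submodule.map_span]
  congr 1
  ext y
  simp

theorem Sx_pow {ι : Type*} (x : ι → R) {y : R} (hy : y ∈ Sx K x 1) (a : ℕ) :
    y ^ a ∈ Sx K x a := by
  induction a with
  | zero => simpa using one_mem_Sx (k := K) x
  | succ a ih =>
    rw [pow_succ]
    exact mul_mem_Sx x _ _ _ _ ih hy

theorem Sx_prod {ι κ : Type*} (x : ι → R) (s : Finset κ) (y : κ → R) (d : κ → ℕ)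
    (hy : ∀ i ∈ s, y i ∈ Sx K x (d i)) : ∏ i ∈ s, y i ∈ Sx K x (∑ i ∈ s, d i) := by
  classical
  induction s using Finset.induction_on with
  | empty => simpa using one_mem_Sx (k := K) x
  | insert a s ha ih =>
    rw [Finset.prod_insert ha, Finset.sum_insert ha]
    exact mul_mem_Sx x _ _ _ _ (hy a (Finset.mem_insert_self _ _))
      (ih fun i hi => hy i (Finset.mem_insert_of_mem hi))

end gen

variable {σ : Type*}

/-- products of light variables -/
theorem list_prod_mem (w : σ → ℕ) (P : Ideal (MvPolynomial σ K))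
    (l : List (MvPolynomial σ K ⧸ P))
    (hl : ∀ y ∈ l, ∃ i, w i = 1 ∧ y = Ideal.Quotient.mk P (X i)) :
    l.prod ∈ (Vw K w l.length).map (Ideal.Quotient.mkₐ K P).toLinearMap := by
  induction l with
  | nil => exact ⟨1, by simpa using C_mem_Vw w (1 : K) 0, by simp⟩
  | cons a l ih =>
    obtain ⟨i, hi, rfl⟩ := hl a (List.mem_cons_self ..)
    obtain ⟨F, hF, hFl⟩ := ih fun y hy => hl y (List.mem_cons_of_mem _ hy)
    refine ⟨X i * F, ?_, ?_⟩
    · have := mul_mem_Vw w (X_mem_Vw (k := K) w i) hF
      rw [hi] at this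
      rw [List.length_cons, add_comm]
      exact this
    · rw [List.prod_cons, ← hFl]
      rfl

theorem list_prod_mem_Sx (w : σ → ℕ) {W : ℕ} (P : Ideal (MvPolynomial σ K)) {m : ℕ}
    (x : Fin m → MvPolynomial σ K ⧸ P)
    (hx : Submodule.span K (Set.range x) =
      (Vw K w W).map (Ideal.Quotient.mkₐ K P).toLinearMap) (q : ℕ) :
    ∀ l : List (MvPolynomial σ K ⧸ P),
      (∀ y ∈ l, ∃ i, w i = 1 ∧ y = Ideal.Quotient.mk P (X i)) → l.length ≤ q * W →
      l.prod ∈ Sx K x q := by
  induction q with
  | zero =>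
    intro l _ hlen
    have : l = [] := List.length_eq_zero_iff.1 (by omega)
    rw [this]
    simpa using one_mem_Sx (k := K) x
  | succ q ih =>
    intro l hl hlen
    rw [← List.take_append_drop W l, List.prod_append, add_comm q 1]
    refine mul_mem_Sx x _ _ _ _ ?_ (ih _ (fun y hy => hl y (List.mem_of_mem_drop hy)) ?_)
    · rw [Sx_one, hx]
      have h1 := list_prod_mem w P (l.take W) fun y hy => hl y (List.mem_of_mem_take hy)
      refine Submodule.map_mono (H580.Vw_mono w ?_) h1
      rw [List.length_take]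
      exact min_le_left _ _
    · rw [List.length_drop]
      rw [add_mul, one_mul] at hlen
      omega

theorem map_Vw_eq_Sx (w : σ → ℕ) {W : ℕ} (hW1 : 1 ≤ W) (hw : ∀ i, w i = 1 ∨ w i = W)
    (P : Ideal (MvPolynomial σ K)) {m : ℕ} (x : Fin m → MvPolynomial σ K ⧸ P)
    (hx : Submodule.span K (Set.range x) =
      (Vw K w W).map (Ideal.Quotient.mkₐ K P).toLinearMap) (n : ℕ) :
    (Vw K w (n * W)).map (Ideal.Quotient.mkₐ K P).toLinearMap = Sx K x n := by
  classical
  refine le_antisymm ?_ ?_
  · rintro _ ⟨F, hF, rfl⟩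
    change Ideal.Quotient.mkₐ K P F ∈ _
    rw [F.as_sum, map_sum]
    refine Submodule.sum_mem _ fun d hd => ?_
    have hdn : Finsupp.weight w d ≤ n * W := mem_Vw.1 hF d hd
    have h1 : monomial d (coeff d F) = C (coeff d F) * ∏ i ∈ d.support, X i ^ d i := by
      rw [monomial_eq]; rfl
    rw [h1, map_mul, map_prod]
    have h2 : (Ideal.Quotient.mkₐ K P) (C (coeff d F)) = algebraMap K _ (coeff d F) := by
      rw [← algebraMap_eq, AlgHom.commutes]
    rw [h2, ← Algebra.smul_def]
    refine Submodule.smul_mem _ _ ?_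
    -- heavy and light parts
    rw [← Finset.prod_filter_mul_prod_filter_not d.support (fun i => w i = W)]
    have hwt : ∑ i ∈ d.support with w i = W, d i * W + ∑ i ∈ d.support with ¬ w i = W, d i
        ≤ n * W := by
      refine le_trans (le_of_eq ?_) hdn
      rw [Finsupp.weight_apply, Finsupp.sum,
        ← Finset.sum_filter_add_sum_filter_not d.support (fun i => w i = W)]
      congr 1
      · refine Finset.sum_congr rfl fun i hi => ?_
        rw [(Finset.mem_filter.1 hi).2, smul_eq_mul]
      · refine Finset.sum_congr rfl fun i hi => ?_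
        rw [(hw i).resolve_right (Finset.mem_filter.1 hi).2, smul_eq_mul, mul_one]
    rw [← Finset.sum_mul] at hwt
    set b := ∑ i ∈ d.support with w i = W, d i with hb
    set a := ∑ i ∈ d.support with ¬ w i = W, d i with ha
    have hXW : ∀ i, w i = W → Ideal.Quotient.mk P (X i) ∈ Sx K x 1 := by
      intro i hi
      rw [Sx_one, hx]
      refine ⟨X i, ?_, rfl⟩
      have := X_mem_Vw (k := K) w i
      rwa [hi] at this
    have hheavy : ∏ i ∈ d.support with w i = W, (Ideal.Quotient.mkₐ K P) (X i ^ d i) ∈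
        Sx K x b := by
      refine Sx_prod x _ _ _ fun i hi => ?_
      rw [map_pow]
      exact Sx_pow x (hXW i (Finset.mem_filter.1 hi).2) _
    have hW : W = 0 ∨ (b ≤ n ∧ a ≤ (n - b) * W) := by
      rcases Nat.eq_zero_or_pos W with h | h
      · exact Or.inl h
      · right
        have h1 : b * W ≤ n * W := le_trans (Nat.le_add_right _ _) hwt
        have h2 : b ≤ n := Nat.le_of_mul_le_mul_right h1 h
        refine ⟨h2, ?_⟩
        rw [Nat.sub_mul]
        omega
    have hlight : ∀ q, a ≤ q * W →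
        ∏ i ∈ d.support with ¬ w i = W, (Ideal.Quotient.mkₐ K P) (X i ^ d i) ∈ Sx K x q := by
      intro q hq
      set s : Multiset (MvPolynomial σ K ⧸ P) :=
        ∑ i ∈ d.support with ¬ w i = W, Multiset.replicate (d i) (Ideal.Quotient.mk P (X i))
        with hs
      have h3 : ∏ i ∈ d.support with ¬ w i = W, (Ideal.Quotient.mkₐ K P) (X i ^ d i) =
          s.prod := by
        rw [hs, Multiset.prod_sum]
        refine Finset.prod_congr rfl fun i _ => ?_
        rw [Multiset.prod_replicate, map_pow]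
        rfl
      have h4 : Multiset.card s = a := by
        rw [hs, Multiset.card_sum, ha]
        refine Finset.sum_congr rfl fun i _ => ?_
        rw [Multiset.card_replicate]
      have h5 : ∀ y ∈ s, ∃ i, w i = 1 ∧ y = Ideal.Quotient.mk P (X i) := by
        intro y hy
        rw [hs, Multiset.mem_sum] at hy
        obtain ⟨i, hi, hyi⟩ := hy
        exact ⟨i, (hw i).resolve_right (Finset.mem_filter.1 hi).2, Multiset.eq_of_mem_replicate hyi⟩
      rw [h3]
      obtain ⟨l, hl⟩ := Quot.exists_rep s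
      have hl' : (l : Multiset _) = s := hl
      rw [← hl', Multiset.prod_coe]
      refine list_prod_mem_Sx w P x hx q l (fun y hy => h5 y ?_) ?_
      · rw [← hl', Multiset.mem_coe]
        exact hy
      · rw [← Multiset.coe_card, hl', h4]
        exact hq
    obtain ⟨hbn, han⟩ := hW.resolve_left (by omega)
    have := mul_mem_Sx x _ _ _ _ hheavy (hlight (n - b) han)
    have h6 : b + (n - b) = n := by omega
    rwa [h6] at this
  · intro u hu
    obtain ⟨F, hF, rfl⟩ := mem_Sx.1 hu
    refine aeval_mem_of_graded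
      (fun n => (Vw K w (n * W)).map (Ideal.Quotient.mkₐ K P).toLinearMap) ?_ ?_ x ?_ hF
    · exact ⟨1, by simpa using C_mem_Vw w (1 : K) 0, by simp⟩
    · rintro a b _ _ ⟨F, hF, rfl⟩ ⟨G, hG, rfl⟩
      refine ⟨F * G, ?_, by simp⟩
      rw [add_mul]
      exact mul_mem_Vw w hF hG
    · intro l
      have h1 : x l ∈ Submodule.span K (Set.range x) := Submodule.subset_span ⟨l, rfl⟩
      rw [hx] at h1
      simpa using h1

variable [Finite σ]

/-- **[REG], weighted**: along the multiples of `W` the weighted Hilbert function of a prime has an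
exact degree -/
theorem regW [Infinite K] (w : σ → ℕ) {W : ℕ} (hW1 : 1 ≤ W) (hw : ∀ i, w i = 1 ∨ w i = W)
    (P : Ideal (MvPolynomial σ K)) (hP : P.IsPrime) :
    ∃ e δ : ℕ, 1 ≤ δ ∧ IsDeg (fun n => hilbF (Vw K w) P (n * W)) e δ := by
  have hdom : IsDomain (MvPolynomial σ K ⧸ P) := (Ideal.Quotient.isDomain_iff_prime P).2 hP
  have hw0 : ∀ i, w i ≠ 0 := fun i => by rcases hw i with h | h <;> omega
  have hfin : Module.Finite K (Vw K w W) := (isFilt_Vw w hw0).fin W
  have hfin' : Module.Finite K ((Vw K w W).map (Ideal.Quotient.mkₐ K P).toLinearMap) :=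
    inferInstance
  obtain ⟨m, x, hx⟩ := Submodule.fg_iff_exists_fin_generating_family.1
    (Module.Finite.iff_fg.1 hfin')
  have hx0 : x ≠ 0 := by
    intro h0
    have h1 : (1 : MvPolynomial σ K ⧸ P) ∈ Submodule.span K (Set.range x) := by
      rw [hx]
      exact ⟨1, by simpa using C_mem_Vw w (1 : K) W, by simp⟩
    rw [h0] at h1
    have h2 : Submodule.span K (Set.range (0 : Fin m → MvPolynomial σ K ⧸ P)) = ⊥ := by
      rw [Submodule.span_eq_bot]
      rintro _ ⟨i, rfl⟩
      rfl
    rw [h2, Submodule.mem_bot] at h1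
    exact one_ne_zero h1
  obtain ⟨e, δ, hδ, h⟩ := reg_fintype (K := K) x hx0
  refine ⟨e, δ, hδ, ?_⟩
  have : (fun n => hilbF (Vw K w) P (n * W)) = fun n => Module.finrank K (Sx K x n) := by
    funext n
    unfold hilbF
    rw [map_Vw_eq_Sx w hW1 hw P x hx n]
  rw [this]
  exact h

/-- the total degree filtration is contained in the weighted one -/
theorem hF_le_hilbF_Vw (w : σ → ℕ) {W : ℕ} (hw0 : ∀ i, w i ≠ 0) (hw : ∀ i, w i ≤ W)
    (P : Ideal (MvPolynomial σ K)) (n : ℕ) : hF P n ≤ hilbF (Vw K w) P (n * W) := by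
  have := (isFilt_Vw (k := K) w hw0).finite_map P (n * W)
  refine Submodule.finrank_mono (Submodule.map_mono ?_)
  exact (isFilt_Vw (k := K) w hw0).total_le (fun i => H580.X_mem_Vw_le w hw i) n

/-- **[REG], weighted, with the right exponent** -/
theorem exists_degW [Infinite K] (w : σ → ℕ) {W : ℕ} (hW1 : 1 ≤ W)
    (hw : ∀ i, w i = 1 ∨ w i = W) (P : Ideal (MvPolynomial σ K)) (hP : P.IsPrime) {s C : ℕ}
    (hup : ∀ n, hilbF (Vw K w) P n ≤ C * (n + 1) ^ s) (hlow : ∀ n, (n + s).choose s ≤ hF P n) :
    ∃ δ, 1 ≤ δ ∧ IsDeg (fun n => hilbF (Vw K w) P (n * W)) s δ := by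
  obtain ⟨e, δ, hδ, c, h⟩ := regW w hW1 hw P hP
  have hw0 : ∀ i, w i ≠ 0 := fun i => by rcases hw i with h | h <;> omega
  have hwW : ∀ i, w i ≤ W := fun i => by rcases hw i with h | h <;> omega
  have hes : e ≤ s := by
    refine exp_le_of_bound (A := 1) (B := e.factorial * (C * W ^ s)) (c := c) le_rfl fun T => ?_
    calc 1 * (T + 1) ^ e ≤ δ * (e.factorial * (T + e).choose e) :=
          Nat.mul_le_mul hδ (le_fact_choose T e)
      _ = e.factorial * (δ * (T + e).choose e) := by ring
      _ ≤ e.factorial * (C * ((T + c) * W + 1) ^ s) :=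
          Nat.mul_le_mul_left _ ((h T).1.trans (hup _))
      _ ≤ e.factorial * (C * (W * (T + c + 1)) ^ s) := by
          refine Nat.mul_le_mul_left _ (Nat.mul_le_mul_left _ (Nat.pow_le_pow_left ?_ _))
          nlinarith
      _ = _ := by rw [mul_pow]; ring
  have hse : s ≤ e := by
    refine exp_le_of_bound (A := 1) (B := s.factorial * δ) (c := c + e) le_rfl fun T => ?_
    calc 1 * (T + 1) ^ s ≤ s.factorial * (T + s).choose s := by
          rw [one_mul]; exact le_fact_choose T s
      _ ≤ s.factorial * (δ * (T + c + e).choose e) :=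
          Nat.mul_le_mul_left _
            (((hlow T).trans (hF_le_hilbF_Vw w hw0 hwW P T)).trans (h T).2)
      _ ≤ s.factorial * (δ * (T + (c + e) + 1) ^ e) := by
          refine Nat.mul_le_mul_left _ (Nat.mul_le_mul_left _ ?_)
          have h1 := fact_choose_le (T + c) e
          have h2 : (T + c + e).choose e ≤ e.factorial * (T + c + e).choose e :=
            Nat.le_mul_of_pos_left _ (Nat.factorial_pos e)
          refine (h2.trans h1).trans (Nat.pow_le_pow_left (by omega) _)
      _ = _ := by ring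
  have heq : e = s := le_antisymm hes hse
  subst heq
  exact ⟨δ, hδ, c, h⟩

end Vale.Agent.P054.T2.H163
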