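import Vale.Agent.P054.T2.H794.Leaves
import Vale.Agent.P054.T2.H192.KSideZ
import Vale.Agent.P054.T2.H82.ABEdge
import Vale.Agent.P054.T2.H83.GseamZ
import Vale.Agent.P054.T2.H441.StabEz
import Vale.Agent.P054.T2.H588.EdgeEz
import Vale.Agent.P054.T2.H441.BD
import Vale.Agent.P054.T2.H82.EdgeMk
import Vale.Agent.P054.T2.H794.SecBDef

set_option autoImplicit false
set_option linter.all false

/-!
# P054 / T2: section B, the glue (second source)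

`secB_core`: one `ZData`, leaf systems, [DOM], [G*] and the vertical theorem give `ABMain`.
`secB`: the same over `AData`.
-/

namespace Vale.Agent.P054.T2.H163

open MvPolynomial Finset Module
open Vale.Agent.P054.T2.SecC
open Vale.Agent.P054.T2.H686 (mu meet Qf Bf Crd E Ez Gm ABMain IsoB dists zt)
open Vale.Agent.P054.T2.H580 (Vw Vw_mono kap)
open Vale.Agent.P054.T2.H930 (germ grad Pt edgePt hatPt ZData germ_le_comap)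
open Vale.Agent.P054.T2.H192 (Iso thS thR hpt eval_thS)
open Vale.Agent.P054.T2.H94 (LeafData side₁ side₂ restrictZ pullh)
open Vale.Agent.P054.T2.H588 (mat kP)
open Vale.Agent.P054.T2.H441 (chg cD)
open Vale.Agent.P054.T2.H307 (FI Ed xF xL xH1 xH2 xT wB van)
open Vale.Agent.P054.T2.H794 (ForAData ForZ ZP ZPackS LeafS DomS GStarS AData)

variable {n : ℕ}

/-- stability under the derivations of the field of the points -/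
def StabP (P : Finset (E n)) (B : E n ≃ₗᵢ[ℝ] E n) (I : Ideal (MvPolynomial (ZI n) ℝ)) : Prop :=
  ∀ (D : Derivation (kP P) ℝ ℝ) (h : MvPolynomial (ZI n) ℝ),
    chg (mat B) h ∈ I → chg (mat B) (cD D h) ∈ I

/-- the vertical theorem (622) at one good edge -/
def VertS (n : ℕ) : Prop :=
  ∀ (E0 E1 A : Finset (ZZ n × ZZ n)) (W D N c₀ c₁ c₂ σ₁ σ₂ v₁ v₂ : ℕ)
    (Z : ZData ℝ n E0 E1 A (H94.wh W) N c₀ c₁ c₂ σ₁ σ₂)
    (S₁ : Side n A W D σ₁ v₂) (S₂ : Side n (swp A) W D σ₂ v₁)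
    (P : Finset (E n)) (B : E n ≃ₗᵢ[ℝ] E n) (β : ℕ), Gm P B → ∀ e ∈ A, e ∈ Ez P B β →
    c₀ + (σ₁ + σ₂) = 2 * n + 1 → c₁ + v₁ = 2 * (n + 1) → c₂ + v₂ = 2 * (n + 1) →
    (∀ i, thS e.1 (Z.F i) ∈ germ (hpt e.1 e.2) (S₁.F e.1)) →
    (∀ i, thR e.2 (Z.F i) ∈ germ (hpt e.2 e.1) (S₂.F e.2)) →
    (∀ G : MvPolynomial (ZI n) ℝ, rename (fun x => Sum.inr (Sum.inr x)) G ∈
      germ (edgePt e.1 e.2) Z.F ↔ G ∈ S₁.Pr e) →
    (∀ G : MvPolynomial (ZI n) ℝ, rename (fun x => Sum.inr (Sum.inl x)) G ∈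
      germ (edgePt e.1 e.2) Z.F ↔ G ∈ S₂.Pr e.swap) →
    StabP P B (S₁.Pr e) → StabP P B (S₂.Pr e.swap) →
    (e.1 - e.2 ∈ S₂.V e.swap → S₁.V e ≤ S₂.V e.swap) →
    (e.1 - e.2 ∈ S₁.V e → S₂.V e.swap ≤ S₁.V e) → H82.VertB S₁ S₂ e

theorem thS_rename_u (s : ZZ n) (G : MvPolynomial (Fin n) ℝ) :
    thS s (rename (fun i => (Sum.inl (Sum.inl i) : Crd n ⊕ (Pt n ⊕ Pt n))) G) =
      rename Sum.inl G := by
  have h1 : (thS s).comp (rename (fun i => (Sum.inl (Sum.inl i) : Crd n ⊕ (Pt n ⊕ Pt n)))) =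
      rename Sum.inl := by
    apply algHom_ext
    intro x
    rw [AlgHom.comp_apply, rename_X, rename_X, thS, aeval_X, Sum.elim_inl, H94.pull_X_inl,
      rename_X]
  exact congrArg (fun φ : MvPolynomial (Fin n) ℝ →ₐ[ℝ] MvPolynomial (Fin n ⊕ Pt n) ℝ => φ G) h1

/-- counting: at most half of the edges are removed -/
theorem card_good {α : Type*} [DecidableEq α] {E' E2 Y₁ Y₂ Y₃ Y₄ B₁ B₂ B₃ Eg : Finset α}
    (h2 : 4 * (E' \ E2).card ≤ E'.card)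
    (hY₁ : 64 * Y₁.card ≤ E'.card) (hY₂ : 64 * Y₂.card ≤ E'.card) (hY₃ : 64 * Y₃.card ≤ E'.card)
    (hY₄ : 64 * Y₄.card ≤ E'.card) (hB₁ : 64 * B₁.card ≤ E'.card) (hB₂ : 64 * B₂.card ≤ E'.card)
    (hB₃ : 64 * B₃.card ≤ E'.card)
    (hg : ∀ e ∈ E2, e ∉ Y₁ → e ∉ Y₂ → e ∉ Y₃ → e ∉ Y₄ → e ∉ B₁ → e ∉ B₂ → e ∉ B₃ → e ∈ Eg) :
    E'.card ≤ 2 * Eg.card := by
  have h1 : E' ⊆ Eg ∪ ((E' \ E2) ∪ (Y₁ ∪ (Y₂ ∪ (Y₃ ∪ (Y₄ ∪ (B₁ ∪ (B₂ ∪ B₃))))))) := by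
    intro e he
    simp only [Finset.mem_union, Finset.mem_sdiff]
    by_cases h : e ∈ E2
    · by_cases a1 : e ∈ Y₁
      · tauto
      by_cases a2 : e ∈ Y₂
      · tauto
      by_cases a3 : e ∈ Y₃
      · tauto
      by_cases a4 : e ∈ Y₄
      · tauto
      by_cases a5 : e ∈ B₁
      · tauto
      by_cases a6 : e ∈ B₂
      · tauto
      by_cases a7 : e ∈ B₃
      · tauto
      exact Or.inl (hg e h a1 a2 a3 a4 a5 a6 a7)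
    · exact Or.inr (Or.inl ⟨he, h⟩)
  have h3 := Finset.card_le_card h1
  have k1 := Finset.card_union_le Eg ((E' \ E2) ∪ (Y₁ ∪ (Y₂ ∪ (Y₃ ∪ (Y₄ ∪ (B₁ ∪ (B₂ ∪ B₃)))))))
  have k2 := Finset.card_union_le (E' \ E2) (Y₁ ∪ (Y₂ ∪ (Y₃ ∪ (Y₄ ∪ (B₁ ∪ (B₂ ∪ B₃))))))
  have k3 := Finset.card_union_le Y₁ (Y₂ ∪ (Y₃ ∪ (Y₄ ∪ (B₁ ∪ (B₂ ∪ B₃)))))
  have k4 := Finset.card_union_le Y₂ (Y₃ ∪ (Y₄ ∪ (B₁ ∪ (B₂ ∪ B₃))))
  have k5 := Finset.card_union_le Y₃ (Y₄ ∪ (B₁ ∪ (B₂ ∪ B₃)))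
  have k6 := Finset.card_union_le Y₄ (B₁ ∪ (B₂ ∪ B₃))
  have k7 := Finset.card_union_le B₁ (B₂ ∪ B₃)
  have k8 := Finset.card_union_le B₂ B₃
  omega

/-- the leaf polynomials of `Z⁺` lie in the prime of the side of `s` -/
theorem u_mem {A E0 E1 E2 : Finset (ZZ n × ZZ n)} {wt : Crd n ⊕ Pt n → ℕ}
    {W D N c₀ c₁ c₂ σ₁ σ₂ v : ℕ} (Z : ZData ℝ n E0 E1 E2 wt N c₀ c₁ c₂ σ₁ σ₂)
    (S₁ : Side n A W D σ₁ v) (e : ZZ n × ZZ n)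
    (h : ∀ i, thS e.1 (Z.F i) ∈ germ (hpt e.1 e.2) (S₁.F e.1)) (G : MvPolynomial (Fin n) ℝ)
    (hG : rename (fun i => (Sum.inl (Sum.inl i) : Crd n ⊕ (Pt n ⊕ Pt n))) G ∈
      germ (edgePt e.1 e.2) Z.F) : rename (R := ℝ) Sum.inl G ∈ S₁.P e := by
  have h1 := germ_le_comap (thS e.1) (eval_thS e.1 e.2) h hG
  rw [Ideal.mem_comap, thS_rename_u] at h1
  exact h1

theorem xH1_eq (e : ZZ n × ZZ n) : xH1 e = hatPt e.1 (mu e.1 e.2) := rfl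

theorem xH2_eq {e : ZZ n × ZZ n} (h0 : e.1.1 0 ≠ e.2.1 0) (hq : Qf (e.1 - e.2) = 0) :
    xH2 e = hatPt e.2 (mu e.2 e.1) := by
  have h1 : xH2 e = Sum.elim (meet e.1 e.2) (H930.ptc e.2) := rfl
  rw [h1, H686.meet_comm h0 hq]
  rfl

/-- **section B over one `ZData`** -/
theorem secB_core (hV : VertS n) {β b k₀ i₀ : ℕ} (hb : 2 ≤ b)
    {E' E1 E2 : Finset (ZZ n × ZZ n)} {c₀ c₁ c₂ σ₁ σ₂ v₁ v₂ : ℕ}
    (Z : ZData ℝ n E' E1 E2 (wB (b ^ k₀)) (b ^ (k₀ + i₀)) c₀ c₁ c₂ σ₁ σ₂)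
    (hfd : ∀ i, (Z.f i).totalDegree ≤ b ^ k₀)
    (hc₀ : c₀ + (σ₁ + σ₂) = 2 * n + 1) (hσ₁ : σ₁ ≤ n) (hσ₁1 : 1 ≤ σ₁) (hσ₂ : σ₂ ≤ n)
    (hσ₂1 : 1 ≤ σ₂) (hc₁ : c₁ + v₁ = 2 * (n + 1)) (hc₂ : c₂ + v₂ = 2 * (n + 1))
    (hE2 : 4 * (E' \ E2).card ≤ E'.card)
    -- the leaf systems
    (f₁ : ZZ n → Fin (n - σ₁) → MvPolynomial (Fin n) ℝ)
    (hf₁d : ∀ s i, (f₁ s i).totalDegree ≤ b ^ k₀)
    (hf₁0 : ∀ e ∈ E', ∀ i, eval (mu e.1 e.2) (f₁ e.1 i) = 0)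
    (hf₁i : ∀ e ∈ E', LinearIndependent ℝ (fun i => grad (mu e.1 e.2) (f₁ e.1 i)))
    {Y₁ : Finset (ZZ n × ZZ n)} (hY₁ : 64 * Y₁.card ≤ E'.card)
    (hf₁g : ∀ e ∈ E', e ∉ Y₁ → ∀ G : MvPolynomial (Fin n) ℝ, G.totalDegree ≤ b ^ (k₀ + i₀) →
      (∀ e' ∈ E', e'.1 = e.1 → eval (mu e'.1 e'.2) G = 0) → G ∈ germ (mu e.1 e.2) (f₁ e.1))
    (f₂ : ZZ n → Fin (n - σ₂) → MvPolynomial (Fin n) ℝ)
    (hf₂d : ∀ s i, (f₂ s i).totalDegree ≤ b ^ k₀)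
    (hf₂0 : ∀ e ∈ E', ∀ i, eval (mu e.1 e.2) (f₂ e.2 i) = 0)
    (hf₂i : ∀ e ∈ E', LinearIndependent ℝ (fun i => grad (mu e.1 e.2) (f₂ e.2 i)))
    {Y₂ : Finset (ZZ n × ZZ n)} (hY₂ : 64 * Y₂.card ≤ E'.card)
    (hf₂g : ∀ e ∈ E', e ∉ Y₂ → ∀ G : MvPolynomial (Fin n) ℝ, G.totalDegree ≤ b ^ (k₀ + i₀) →
      (∀ e' ∈ E', e'.2 = e.2 → eval (mu e'.1 e'.2) G = 0) → G ∈ germ (mu e.1 e.2) (f₂ e.2))
    -- the point set
    {t : ℕ} {P : Finset (E n)} {B : E n ≃ₗᵢ[ℝ] E n} {G : ℕ → ℕ} (hB : Gm P B)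
    (ht : (dists P).card ≤ t) (hG : IsoB n P G) (hE'E : E' ⊆ Ez P B β)
    (hcard : (Ez P B β).card ≤ b * E'.card)
    -- stability
    {Y₃ : Finset (ZZ n × ZZ n)} (hY₃ : 64 * Y₃.card ≤ E'.card)
    (hst_s : ∀ e ∈ E2, e ∉ Y₃ → ∀ (D : Derivation (kP P) ℝ ℝ) (h : MvPolynomial (ZI n) ℝ),
      rename (H441.js n) (chg (mat B) h) ∈ germ (edgePt e.1 e.2) Z.F →
      rename (H441.js n) (chg (mat B) (cD D h)) ∈ germ (edgePt e.1 e.2) Z.F)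
    {Y₄ : Finset (ZZ n × ZZ n)} (hY₄ : 64 * Y₄.card ≤ E'.card)
    (hst_r : ∀ e ∈ E2, e ∉ Y₄ → ∀ (D : Derivation (kP P) ℝ ℝ) (h : MvPolynomial (ZI n) ℝ),
      rename (H441.jr n) (chg (mat B) h) ∈ germ (edgePt e.1 e.2) Z.F →
      rename (H441.jr n) (chg (mat B) (cD D h)) ∈ germ (edgePt e.1 e.2) Z.F)
    -- [G*]
    (hG₁ : ∀ Bd ⊆ E2, (∀ e ∈ Bd, ∃ φ ∈ Vw ℝ (wB (b ^ k₀)) (2 * b ^ k₀),
      (∀ e' ∈ Bd, germ (edgePt e'.1 e'.2) Z.F = germ (edgePt e.1 e.2) Z.F →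
        eval (xH1 e') φ = 0) ∧
      rename (H930.j1 n) φ ∉ germ (edgePt e.1 e.2) Z.F) → 64 * Bd.card ≤ E'.card)
    (hG₂ : ∀ Bd ⊆ E2, (∀ e ∈ Bd, ∃ φ ∈ Vw ℝ (wB (b ^ k₀)) (2 * b ^ k₀),
      (∀ e' ∈ Bd, germ (edgePt e'.1 e'.2) Z.F = germ (edgePt e.1 e.2) Z.F →
        eval (xH2 e') φ = 0) ∧
      rename (H930.j2 n) φ ∉ germ (edgePt e.1 e.2) Z.F) → 64 * Bd.card ≤ E'.card) :
    ABMain n P B β b 2 i₀ (4 * (n + 1)) (H819.Cx n) t (b ^ k₀) G := by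
  classical
  -- the good edges before [G*]
  set E3 := E2 \ (Y₁ ∪ (Y₂ ∪ (Y₃ ∪ Y₄))) with hE3def
  have hE3 : E3 ⊆ E2 := Finset.sdiff_subset
  have hE3' : ∀ e ∈ E3, e ∈ E' ∧ e ∉ Y₁ ∧ e ∉ Y₂ ∧ e ∉ Y₃ ∧ e ∉ Y₄ := by
    intro e he
    have h1 := Finset.mem_sdiff.1 he
    have h2 := h1.2
    simp only [Finset.mem_union, not_or] at h2
    exact ⟨Z.mem0 h1.1, h2.1, h2.2.1, h2.2.2.1, h2.2.2.2⟩
  -- numbers
  have hW : 1 ≤ b ^ k₀ := Nat.one_le_pow _ _ (by omega)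
  have hD : 1 ≤ b ^ i₀ := Nat.one_le_pow _ _ (by omega)
  have hN : b ^ (k₀ + i₀) ≤ b ^ i₀ * b ^ k₀ := le_of_eq (by rw [pow_add, mul_comm])
  have hcc₁ : c₁ = 2 * (n + 1) - v₁ := by omega
  have hcc₂ : c₂ = 2 * (n + 1) - v₂ := by omega
  have hv₁ : v₁ ≤ 2 * (n + 1) := by omega
  have hv₂ : v₂ ≤ 2 * (n + 1) := by omega
  -- leaf data
  let L₁ : LeafData E' E3 (b ^ k₀) (b ^ (k₀ + i₀)) σ₁ :=
    { f := f₁
      deg := hf₁d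
      zero := fun e he => hf₁0 e (hE3' e he).1
      ind := fun e he => hf₁i e (hE3' e he).1
      good := fun e he G hG h => hf₁g e (hE3' e he).1 (hE3' e he).2.1 G hG h }
  let L₂ : LeafData (swp E') (swp E3) (b ^ k₀) (b ^ (k₀ + i₀)) σ₂ :=
    { f := f₂
      deg := hf₂d
      zero := fun e he i => by
        have h1 := hf₂0 e.swap (hE3' _ (mem_swp.1 he)).1 i
        rw [H686.mu_comm] at h1
        exact h1
      ind := fun e he => by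
        have h1 := hf₂i e.swap (hE3' _ (mem_swp.1 he)).1
        rw [H686.mu_comm] at h1
        exact h1
      good := fun e he G hG h => by
        have h1 := hf₂g e.swap (hE3' _ (mem_swp.1 he)).1 (hE3' _ (mem_swp.1 he)).2.2.1 G hG
          (fun e' he' h2 => by
            have h3 := h e'.swap (mem_swp.2 (by rwa [Prod.swap_swap])) h2
            rw [H686.mu_comm] at h3
            exact h3)
        rw [H686.mu_comm] at h1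
        exact h1 }
  -- `Z` over the good edges
  let Z3 : ZData ℝ n E' E1 E3 (H94.wh (b ^ k₀)) (b ^ (k₀ + i₀)) c₀ c₁ c₂ σ₁ σ₂ := restrictZ Z hE3
  have hZ3F : Z3.F = Z.F := rfl
  let S₁ : Side n E3 (b ^ k₀) (b ^ i₀) σ₁ v₂ :=
    side₁ Z3 hcc₂ L₁ (Finset.Subset.refl _) hW hD hN hσ₁ hσ₁1 hv₂
  let S₂ : Side n (swp E3) (b ^ k₀) (b ^ i₀) σ₂ v₁ :=
    side₂ Z3 hcc₁ L₂ (Finset.Subset.refl _) hW hD hN hσ₂ hσ₂1 hv₁
  have hK : ∀ e ∈ E3, (∀ G : MvPolynomial (ZI n) ℝ, rename (fun x => Sum.inr (Sum.inr x)) G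
      ∈ germ (edgePt e.1 e.2) Z.F ↔ G ∈ S₁.Pr e) ∧
      (∀ G : MvPolynomial (ZI n) ℝ, rename (fun x => Sum.inr (Sum.inl x)) G
      ∈ germ (edgePt e.1 e.2) Z.F ↔ G ∈ S₂.Pr e.swap) := fun e he =>
    H192.kp_z Z3 hcc₂ hcc₁ L₁ L₂ (Finset.Subset.refl _) hW hD hN hσ₁ hσ₁1 hσ₂ hσ₂1 hv₁ hv₂ hc₀ he
  have hKc : ∀ e ∈ E3, (∀ i, thS e.1 (Z.F i) ∈ germ (hpt e.1 e.2) (S₁.F e.1)) ∧
      (∀ i, thR e.2 (Z.F i) ∈ germ (hpt e.2 e.1) (S₂.F e.2)) := fun e he =>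
    H192.kp_z_core Z3 hcc₂ hcc₁ L₁ L₂ (Finset.Subset.refl _) hW hD hN hσ₁ hσ₁1 hσ₂ hσ₂1 hv₁ hv₂ he
  have hK1 : ∀ e ∈ E3, ∀ G : MvPolynomial (ZI n) ℝ, rename (fun x => Sum.inr (Sum.inr x)) G
      ∈ germ (edgePt e.1 e.2) Z.F ↔ G ∈ S₁.Pr e := fun e he => (hK e he).1
  have hK2 : ∀ e ∈ E3, ∀ G : MvPolynomial (ZI n) ℝ, rename (fun x => Sum.inr (Sum.inl x)) G
      ∈ germ (edgePt e.1 e.2) Z.F ↔ G ∈ S₂.Pr e.swap := fun e he => (hK e he).2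
  -- stability
  have hst₁ : ∀ e ∈ E3, StabP P B (S₁.Pr e) := fun e he D h hh =>
    (hK1 e he _).1 (hst_r e (hE3 he) (hE3' e he).2.2.2.2 D h ((hK1 e he _).2 hh))
  have hst₂ : ∀ e ∈ E3, StabP P B (S₂.Pr e.swap) := fun e he D h hh =>
    (hK2 e he _).1 (hst_s e (hE3 he) (hE3' e he).2.2.2.1 D h ((hK2 e he _).2 hh))
  -- the [G*] sets
  set B₁ := E3.filter fun e => e.1 - e.2 ∈ S₁.V e ∧ ¬ S₂.V e.swap ≤ S₁.V e with hB₁def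
  set B₂ := E3.filter fun e => e.1 - e.2 ∈ S₂.V e.swap ∧ ¬ S₁.V e ≤ S₂.V e.swap with hB₂def
  set B₃ := E3.filter fun e => ¬ Ste S₁ e with hB₃def
  have hB₁ : 64 * B₁.card ≤ E'.card := by
    refine hG₁ B₁ ((Finset.filter_subset _ _).trans hE3) fun e he => ?_
    obtain ⟨h1, h2, h3⟩ := Finset.mem_filter.1 he
    obtain ⟨φ, g1, g2, g3⟩ := H83.bd_hw₂ S₁ S₂ Z.F hK1 hK2 e h1 h2 h3
    refine ⟨φ, g1, fun e' he' h => ?_, g3⟩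
    obtain ⟨k1, k2, k3⟩ := Finset.mem_filter.1 he'
    exact g2 e' k1 k2 h
  have hB₂ : 64 * B₂.card ≤ E'.card := by
    refine hG₂ B₂ ((Finset.filter_subset _ _).trans hE3) fun e he => ?_
    obtain ⟨h1, h2, h3⟩ := Finset.mem_filter.1 he
    obtain ⟨φ, g1, g2, g3⟩ := H83.bd_hw₁ S₁ S₂ Z.F hK1 hK2 e h1 h2 h3
    refine ⟨φ, g1, fun e' he' h => ?_, g3⟩
    obtain ⟨k1, k2, k3⟩ := Finset.mem_filter.1 he'
    have h4 := Z.adj e' (hE3' e' k1).1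
    rw [xH2_eq h4.1 h4.2]
    exact g2 e' k1 k2 h
  have hB₃ : 64 * B₃.card ≤ E'.card := by
    refine hG₁ B₃ ((Finset.filter_subset _ _).trans hE3) fun e he => ?_
    obtain ⟨h1, h2⟩ := Finset.mem_filter.1 he
    obtain ⟨φ, g1, g2, g3⟩ := H83.bd_ste S₁ S₂ Z.F hK1 hK2
      (fun e he G hG => u_mem Z S₁ e (hKc e he).1 G hG) e h1 h2
    refine ⟨φ, g1, fun e' he' h => ?_, g3⟩
    obtain ⟨k1, k2⟩ := Finset.mem_filter.1 he'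
    exact g2 e' k1 k2 h
  -- the final set
  set Eg := E3 \ (B₁ ∪ (B₂ ∪ B₃)) with hEgdef
  have hEg3 : Eg ⊆ E3 := Finset.sdiff_subset
  have hEg2 : Eg ⊆ E2 := hEg3.trans hE3
  have hEg' : ∀ e ∈ Eg, e ∈ E3 ∧ e ∉ B₁ ∧ e ∉ B₂ ∧ e ∉ B₃ := by
    intro e he
    have h1 := Finset.mem_sdiff.1 he
    have h2 := h1.2
    simp only [Finset.mem_union, not_or] at h2
    exact ⟨h1.1, h2.1, h2.2.1, h2.2.2⟩
  have hcardEg : E'.card ≤ 2 * Eg.card := by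
    refine card_good (E2 := E2) (Y₁ := Y₁) (Y₂ := Y₂) (Y₃ := Y₃) (Y₄ := Y₄) (B₁ := B₁) (B₂ := B₂)
      (B₃ := B₃) hE2 hY₁ hY₂ hY₃ hY₄ hB₁ hB₂ hB₃ ?_
    intro e h0 h1 h2 h3 h4 h5 h6 h7
    rw [hEgdef, Finset.mem_sdiff, hE3def, Finset.mem_sdiff]
    simp only [Finset.mem_union, not_or]
    exact ⟨⟨h0, h1, h2, h3, h4⟩, h5, h6, h7⟩
  -- the edges
  have hEB : ∀ e ∈ Eg, EdgeB S₁ S₂ e := by
    intro e he
    obtain ⟨h3, hb1, hb2, hb3⟩ := hEg' e he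
    have heE : e ∈ Ez P B β := hE'E (hE3' e h3).1
    have hw₁ : e.1 - e.2 ∈ S₂.V e.swap → S₁.V e ≤ S₂.V e.swap := by
      intro h
      by_contra hc
      exact hb2 (Finset.mem_filter.2 ⟨h3, h, hc⟩)
    have hw₂ : e.1 - e.2 ∈ S₁.V e → S₂.V e.swap ≤ S₁.V e := by
      intro h
      by_contra hc
      exact hb1 (Finset.mem_filter.2 ⟨h3, h, hc⟩)
    have hste : Ste S₁ e := by
      by_contra hc
      exact hb3 (Finset.mem_filter.2 ⟨h3, hc⟩)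
    have hv := hV E' E1 E3 (b ^ k₀) (b ^ i₀) (b ^ (k₀ + i₀)) c₀ c₁ c₂ σ₁ σ₂ v₁ v₂ Z3 S₁ S₂ P B β hB
      e h3 heE hc₀ hc₁ hc₂ (hKc e h3).1 (hKc e h3).2 (hK1 e h3) (hK2 e h3) (hst₁ e h3)
      (hst₂ e h3) hw₁ hw₂
    exact
      { side₁ := H588.edgeS_Ez hB S₁ h3 heE (hst₁ e h3)
        side₂ := H588.edgeS_Ez_swap hB S₂ h3 heE (hst₂ e h3)
        hperp := (H981.prod_side Z (hE3 h3) S₁ S₂ (hK1 e h3) (hK2 e h3)).1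
        hw₁ := hw₁
        hw₂ := hw₂
        ste := hste
        vertN := hv.vertN
        vertA₁ := hv.vertA₁
        vertA₂ := hv.vertA₂ }
  -- conclusion
  have hcardE : (Ez P B β).card ≤ b ^ 2 * Eg.card := by
    calc (Ez P B β).card ≤ b * E'.card := hcard
      _ ≤ b * (2 * Eg.card) := Nat.mul_le_mul_left _ hcardEg
      _ ≤ b * (b * Eg.card) := Nat.mul_le_mul_left _ (Nat.mul_le_mul_right _ hb)
      _ = b ^ 2 * Eg.card := by ring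
  refine H82.abMain_of_edgeB (E0 := E') (E1 := E1) (A := Eg) (N := b ^ (k₀ + i₀)) (c₀ := c₀)
    (c₁ := c₁) (c₂ := c₂) (W := b ^ k₀) (D := b ^ i₀) (v₁ := v₁) (v₂ := v₂)
    (H82.zrestrict Z hEg2) (H83.resS S₁ hEg3) (H83.resS S₂ (H83.swp_mono hEg3))
    (fun e he => hK1 e (hEg3 he)) (fun e he => hK2 e (hEg3 he))
    (fun e he => H83.edgeB_res hEg3 (hEB e he)) hG ht ((hEg3.trans (fun e he => (hE3' e he).1)).trans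
      hE'E) hcardE le_rfl le_rfl hfd
    (fun i => Vw_mono _ hN (Z.h_mem i)) (fun i => Vw_mono _ hN (Z.h'_mem i)) hc₁ hc₂ hc₀.le

theorem kap_le_last {K : ℕ} (v : ℕ → ℕ) {j : ℕ} (h : j < v K) : kap (K + 1) v j ≤ K := by
  classical
  unfold kap
  have h1 : ((Finset.range (K + 1)).filter fun k => v k ≤ j) ⊆ Finset.range K := by
    intro k hk
    obtain ⟨h2, h3⟩ := Finset.mem_filter.1 hk
    rw [Finset.mem_range] at h2 ⊢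
    rcases Nat.lt_or_ge k K with h4 | h4
    · exact h4
    · have h5 : k = K := by omega
      subst h5
      omega
  exact (Finset.card_le_card h1).trans (by simp)

/-- **SECTION B from its leaves** -/
theorem secB_of (hV : VertS n) (hZ : ZPackS n) (hL : LeafS n) (hS : H441.StabS n)
    (hG : GStarS n) : H794.SecB n := by
  have h1 := H794.ForAData.and (H794.ForAData.and hZ hL) (H794.ForAData.and hS hG)
  refine H794.ForAData.imp h1 0 0 (fun _ _ _ _ => 0) ?_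
  rintro k β C₁ L K₀ q C k₀ i₀ i₁ Wg E' v - - - A
    ⟨⟨⟨E1, E2, c₀, c₁, c₂, σ₁, σ₂, v₁, v₂, Z, hZP, hc₁, hc₂, hE2⟩,
      ⟨f₁, a1, a2, a3, Y₁, hY₁, hY₁c, a4⟩, ⟨f₂, b1, b2, b3, Y₂, hY₂, hY₂c, b4⟩⟩, hst, hgs⟩
  intro t P B G hB ht hGi hE hcard
  have hE12 : E2 ⊆ E' := fun e he => Z.mem0 he
  have hE2' : E'.card ≤ 2 * E2.card := by
    have k1 : E' ⊆ E2 ∪ (E' \ E2) := by
      intro e he
      by_cases h : e ∈ E2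
      · exact Finset.mem_union_left _ h
      · exact Finset.mem_union_right _ (Finset.mem_sdiff.2 ⟨he, h⟩)
    have k2 := (Finset.card_le_card k1).trans (Finset.card_union_le _ _)
    omega
  have hn : 1 ≤ n := by
    have := A.pos1
    omega
  obtain ⟨⟨Y₃, hY₃, hY₃c, s3⟩, ⟨Y₄, hY₄, hY₄c, s4⟩⟩ :=
    hst E1 E2 c₀ c₁ c₂ σ₁ σ₂ v₁ v₂ Z hZP hc₁ hc₂ hE2' P B β hB hn hE
  obtain ⟨g1, g2⟩ := hgs E1 E2 c₀ c₁ c₂ σ₁ σ₂ v₁ v₂ Z hZP hc₁ hc₂ hE2'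
  have hσ₁ := hZP.hσ₁
  have hσ₂ := hZP.hσ₂
  have ht := A.tight
  have hp1 := A.pos1
  have hp2 := A.pos2
  have hc00 := hZP.hc₀
  have hfd : ∀ i, (Z.f i).totalDegree ≤ (β ^ L) ^ k₀ := by
    intro i
    have k1 := (H307.mem_van.1 (hZP.f_van i)).1
    rw [mem_restrictTotalDegree] at k1
    refine k1.trans (Nat.pow_le_pow_right A.hb.le (kap_le_last _ ?_))
    exact i.2.trans_le hc00.le
  subst hσ₁
  subst hσ₂
  exact secB_core hV (by have := A.hb; omega) Z hfd (by omega) (by omega) (by omega) (by omega)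
    (by omega) hc₁ hc₂ hE2 f₁ a1 a2 a3 hY₁c a4 f₂ b1 b2 b3 hY₂c b4 hB ‹_› hGi hE hcard hY₃c s3
    hY₄c s4 g1 g2

/-- the same with [DOM] instead of [STAB] -/
theorem secB_of_dom (hV : VertS n) (hZ : ZPackS n) (hL : LeafS n) (hD : DomS n)
    (hG : GStarS n) : H794.SecB n :=
  secB_of hV hZ hL (H441.stabS_of_domS hD) hG

end Vale.Agent.P054.T2.H163
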