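import Vale.Agent.P054.T2.H163.Hilb

/-! P054 / T2: the separation lemma at finite level (only the elements of `I` of bounded degree have
to lie in the jet ideals) and for a general multiplicative filtration. -/

namespace Vale.Agent.P054.T2.H163

open MvPolynomial H441

variable {K : Type*} [Field K] {σ : Type*}

theorem filt_pow {V : ℕ → Submodule K (MvPolynomial σ K)} (h1 : 1 ∈ V 0)
    (hmul : ∀ a b F G, F ∈ V a → G ∈ V b → F * G ∈ V (a + b)) {a : ℕ} {F : MvPolynomial σ K}
    (hF : F ∈ V a) (k : ℕ) : F ^ k ∈ V (k * a) := by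
  induction k with
  | zero => simpa using h1
  | succ k ih =>
    rw [pow_succ, add_mul, one_mul]
    exact hmul _ _ _ _ ih hF

/-- linear algebra: comparison of the ranks of two maps on a finite dimensional space -/
theorem finrank_map_le_of_ker {A B C : Type*} [AddCommGroup A] [Module K A] [AddCommGroup B]
    [Module K B] [AddCommGroup C] [Module K C] (W : Submodule K A) [Module.Finite K W]
    (f : A →ₗ[K] B) (g : A →ₗ[K] C) (h : ∀ x ∈ W, f x = 0 → g x = 0) :
    Module.finrank K (W.map g) ≤ Module.finrank K (W.map f) := by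
  have h1 := LinearMap.finrank_range_add_finrank_ker (f.domRestrict W)
  have h2 := LinearMap.finrank_range_add_finrank_ker (g.domRestrict W)
  rw [LinearMap.range_domRestrict] at h1 h2
  have h3 : LinearMap.ker (f.domRestrict W) ≤ LinearMap.ker (g.domRestrict W) := by
    intro x hx
    rw [LinearMap.mem_ker, LinearMap.domRestrict_apply] at hx ⊢
    exact h x x.2 hx
  have h4 := Submodule.finrank_mono h3
  omega

/-- **Separation lemma**, finite level, general filtration `V` (multiplicative, finite dimensional,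
containing the polynomials of total degree `n` in `V (n * b)`). -/
theorem sepF (V : ℕ → Submodule K (MvPolynomial σ K)) (hfin : ∀ n, Module.Finite K (V n))
    (hmul : ∀ a b F G, F ∈ V a → G ∈ V b → F * G ∈ V (a + b)) {b : ℕ}
    (hb : ∀ n, restrictTotalDegree σ K n ≤ V (n * b))
    (I : Ideal (MvPolynomial σ K)) (Y : Finset (σ → K))
    (q : (σ → K) → MvPolynomial σ K) (J : (σ → K) → Ideal (MvPolynomial σ K)) {T k : ℕ}
    (hq : ∀ p ∈ Y, q p ∈ V T) (hq1 : ∀ p ∈ Y, eval p (q p) = 1)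
    (hq0 : ∀ p ∈ Y, ∀ p' ∈ Y, p' ≠ p → eval p' (q p) = 0)
    (hJ : ∀ p ∈ Y, m p ^ (k + 1) ≤ J p)
    (hIJ : ∀ p ∈ Y, ∀ F ∈ I, F ∈ V ((k + 1) * T + k * b) → F ∈ J p) :
    ∑ p ∈ Y, Module.finrank K (MvPolynomial σ K ⧸ J p) ≤
      Module.finrank K ((V ((k + 1) * T + k * b)).map (Ideal.Quotient.mkₐ K I).toLinearMap) := by
  classical
  have h1V : (1 : MvPolynomial σ K) ∈ V 0 := by
    have := hb 0
    rw [zero_mul] at this
    refine this ?_
    rw [mem_restrictTotalDegree]; simp
  -- the quotients are finite dimensional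
  have hfinJ : ∀ p : Y, Module.Finite K (MvPolynomial σ K ⧸ J p) := by
    intro p
    have := hfin (k * b)
    refine Module.Finite.of_surjective
      ((Ideal.Quotient.mkₐ K (J p)).toLinearMap ∘ₗ (V (k * b)).subtype) ?_
    intro c
    obtain ⟨F, rfl⟩ := Ideal.Quotient.mk_surjective c
    obtain ⟨G, hG, hFG⟩ := taylor (p : σ → K) k F
    refine ⟨⟨G, hb k hG⟩, ?_⟩
    have : F - G ∈ J p := hJ p p.2 hFG
    simpa using ((Ideal.Quotient.eq (I := J (p : σ → K))).2 this).symm
  let Φ : MvPolynomial σ K →ₗ[K] (∀ p : Y, MvPolynomial σ K ⧸ J p) :=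
    LinearMap.pi fun p => (Ideal.Quotient.mkₐ K (J p)).toLinearMap
  have hΦ : ∀ (F : MvPolynomial σ K) (p : Y), Φ F p = Ideal.Quotient.mk (J p) F := by
    intro F p
    rfl
  set W := V ((k + 1) * T + k * b) with hW
  have htop : W.map Φ = ⊤ := by
    rw [eq_top_iff]
    intro c _
    choose F hF using fun p : Y => Ideal.Quotient.mk_surjective (c p)
    choose G hG hFG using fun p : Y => taylor_unit (p : σ → K) k (q p) (hq1 p p.2) (F p)
    refine ⟨∑ p : Y, q p ^ (k + 1) * G p, ?_, ?_⟩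
    · refine Submodule.sum_mem _ fun p _ => ?_
      exact hmul _ _ _ _ (filt_pow h1V hmul (hq p p.2) _) (hb k (hG p))
    · funext p'
      rw [hΦ, ← hF p', eq_comm, Ideal.Quotient.eq, ← Finset.add_sum_erase _ _ (Finset.mem_univ p'),
        ← sub_sub]
      refine sub_mem (hJ p' p'.2 (hFG p')) ?_
      refine Ideal.sum_mem _ fun p hp => Ideal.mul_mem_right _ _ ?_
      refine hJ p' p'.2 (Ideal.pow_mem_pow ?_ _)
      rw [mem_m]
      refine hq0 p p.2 p' p'.2 ?_
      intro hpp
      exact Finset.ne_of_mem_erase hp (Subtype.ext hpp.symm)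
  have := hfin ((k + 1) * T + k * b)
  have h1 : Module.finrank K (W.map Φ) ≤
      Module.finrank K (W.map (Ideal.Quotient.mkₐ K I).toLinearMap) := by
    refine finrank_map_le_of_ker W _ _ fun F hF hF0 => ?_
    have hFI : F ∈ I := by
      have : Ideal.Quotient.mk I F = 0 := hF0
      exact Ideal.Quotient.eq_zero_iff_mem.1 this
    funext p
    rw [hΦ, Pi.zero_apply, Ideal.Quotient.eq_zero_iff_mem]
    exact hIJ p p.2 F hFI hF
  rw [htop, finrank_top, Module.finrank_pi_fintype] at h1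
  rw [← Finset.sum_coe_sort]
  exact h1

variable [Finite σ]

/-- separation lemma at finite level, total degree -/
theorem sep' (I : Ideal (MvPolynomial σ K)) (Y : Finset (σ → K))
    (q : (σ → K) → MvPolynomial σ K) (J : (σ → K) → Ideal (MvPolynomial σ K)) {T k : ℕ}
    (hq : ∀ p ∈ Y, q p ∈ restrictTotalDegree σ K T)
    (hq1 : ∀ p ∈ Y, eval p (q p) = 1)
    (hq0 : ∀ p ∈ Y, ∀ p' ∈ Y, p' ≠ p → eval p' (q p) = 0)
    (hJ : ∀ p ∈ Y, m p ^ (k + 1) ≤ J p)
    (hIJ : ∀ p ∈ Y, ∀ F ∈ I, F.totalDegree ≤ (k + 1) * T + k → F ∈ J p) :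
    ∑ p ∈ Y, Module.finrank K (MvPolynomial σ K ⧸ J p) ≤ hF I ((k + 1) * T + k) := by
  have := sepF (fun n => restrictTotalDegree σ K n) (fun n => inferInstance)
    (fun a b F G hF hG => V_mul hF hG) (b := 1) (fun n => by rw [mul_one]) I Y q J
    (T := T) (k := k) hq hq1 hq0 hJ
    (fun p hp F hF hFV => hIJ p hp F hF (by rw [mul_one, mem_restrictTotalDegree] at hFV; exact hFV))
  rw [mul_one] at this
  exact this

/-- **[Lo]** at finite level -/
theorem lo' (I : Ideal (MvPolynomial σ K)) (Y : Finset (σ → K))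
    (J : (σ → K) → Ideal (MvPolynomial σ K)) {T k e : ℕ}
    (hJ : ∀ p ∈ Y, m p ^ (k + 1) ≤ J p)
    (hIJ : ∀ p ∈ Y, ∀ F ∈ I, F.totalDegree ≤ (k + 1) * T + k → F ∈ J p)
    (hdim : ∀ p ∈ Y, (k + e).choose e ≤ Module.finrank K (MvPolynomial σ K ⧸ J p)) :
    rkY Y T * (k + e).choose e ≤ hF I ((k + 1) * T + k) := by
  obtain ⟨Y₁, hY, hcard, q, hq⟩ := exists_dual Y T
  have h1 := sep' I Y₁ q J (T := T) (k := k) (fun p hp => (hq p hp).1)
    (fun p hp => (hq p hp).2.1) (fun p hp p' hp' hne => (hq p hp).2.2 p' hp' hne)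
    (fun p hp => hJ p (hY hp)) (fun p hp => hIJ p (hY hp))
  refine le_trans ?_ h1
  rw [← hcard, ← smul_eq_mul, ← Finset.sum_const]
  exact Finset.sum_le_sum fun p hp => hdim p (hY hp)

/-- the rank of a finite set of points is the Hilbert function of its vanishing ideal -/
theorem hF_ker_resA (X : Finset (σ → K)) (n : ℕ) :
    hF (RingHom.ker (resA X)) n = rkY X n := by
  refine le_antisymm ?_ ?_
  · refine finrank_map_le_of_ker _ _ _ fun F _ hF0 => ?_
    have : F ∈ RingHom.ker (resA X) := hF0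
    exact Ideal.Quotient.eq_zero_iff_mem.2 this
  · refine finrank_map_le_of_ker _ _ _ fun F _ hF0 => ?_
    have : F ∈ RingHom.ker (resA X) := Ideal.Quotient.eq_zero_iff_mem.1 hF0
    exact this

/-- **[Lo]** for finite sets of points (one step of a chain): if every polynomial of degree at most
`(k+1) T + k` which vanishes on `X` lies in the jet ideal `J p` of every point `p` of `Y` then the
rank grows from `Y` to `X`. -/
theorem rkY_lo (X Y : Finset (σ → K)) (J : (σ → K) → Ideal (MvPolynomial σ K)) {T k e : ℕ}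
    (hJ : ∀ p ∈ Y, m p ^ (k + 1) ≤ J p)
    (hX : ∀ p ∈ Y, ∀ F : MvPolynomial σ K, F.totalDegree ≤ (k + 1) * T + k →
      (∀ x ∈ X, eval x F = 0) → F ∈ J p)
    (hdim : ∀ p ∈ Y, (k + e).choose e ≤ Module.finrank K (MvPolynomial σ K ⧸ J p)) :
    rkY Y T * (k + e).choose e ≤ rkY X ((k + 1) * T + k) := by
  rw [← hF_ker_resA X]
  refine lo' _ Y J hJ (fun p hp F hF hdeg => hX p hp F hdeg fun x hx => ?_) hdim
  have h1 : resA X F = 0 := hF
  have h2 := congrFun h1 ⟨x, hx⟩
  rw [resA_apply] at h2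
  exact h2

end Vale.Agent.P054.T2.H163
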